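import Vale.Agent.P368.Class

/-! The bootstrap from local operators to product projectors, and the choice of parameters. -/

namespace Vale.Agent.P368

open Matrix Finset
open scoped Matrix.Norms.L2Operator

variable {N : ℕ}

theorem two_pow_half (a b c : ℕ) (h : a + b ≤ c) : (2 : ℝ) ^ a * (1 / 2) ^ c ≤ (1 / 2) ^ b := by
  calc (2 : ℝ) ^ a * (1 / 2) ^ c ≤ 2 ^ a * (1 / 2) ^ (a + b) := by
        gcongr ?_ * ?_
        exact pow_le_pow_of_le_one (by norm_num) (by norm_num) h
    _ = _ := by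
        rw [pow_add, ← mul_assoc, ← mul_pow]
        norm_num

theorem norm_conj {U : Op N} (hU : U ∈ unitary (Op N)) (M : Op N) : ‖star U * M * U‖ = ‖M‖ := by
  rw [CStarRing.norm_mul_mem_unitary _ hU, CStarRing.norm_mem_unitary_mul _ (Unitary.star_mem hU)]

/-- sandwiching a diagonal operator -/
noncomputable def sand (A X C : Op N) : (Om N → ℂ) →ₗ[ℂ] Op N where
  toFun g := A * (X * diagonal g) * C
  map_add' g h := by
    rw [← mul_add_mul_aux]
    simp only [Pi.add_def, diagonal_add]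
  map_smul' c g := by
    simp [diagonal_smul]
where
  mul_add_mul_aux {A X C M M' : Op N} :
      A * (X * (M + M')) * C = A * (X * M) * C + A * (X * M') * C := by noncomm_ring

theorem step {d L l s q : ℕ} (hH : HH N d L) (hl : 2 * N + 5 ≤ 2 ^ l) (hs : 1 ≤ s) (hq : 1 ≤ q)
    (hL : 1 ≤ L) (hG : Good N d (s * q ^ 2) (s * q * ((l + 5) * (l + 7) * L)))
    (U : Op N) (hU : UC d U) (A S B : Finset (Fin N)) (X : Op N) (hX : Loc S X) (k : ℕ)
    (hk : S.card * L + s * q * ((l + 5) * (l + 7) * L) ≤ k) :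
    ‖Dge A k * star U * (X * D0 B) * (U * D0 A)‖ ≤ (1 / 2) ^ s := by
  set e := l * s + s + 3 with he
  set D := s + q * e with hD
  obtain ⟨f, hf1, hf2, hf3⟩ := exists_approx B e hs hq
  rw [← hD] at hf1
  have hUu := hU.unitary
  have hU1 : U * star U = 1 := (Unitary.mem_iff.1 hUu).2
  have hU2 : star U * U = 1 := (Unitary.mem_iff.1 hUu).1
  have hU1' : ∀ M : Op N, U * (star U * M) = M := fun M => by rw [← mul_assoc, hU1, one_mul]
  have hl' : (2 * N + 5 : ℝ) ≤ 2 ^ l := by exact_mod_cast hl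
  have hK : (2 * N + 5 : ℝ) ^ D ≤ 2 ^ (l * D) := by
    rw [pow_mul]
    exact pow_le_pow_left₀ (by positivity) hl' _
  have hDle : D ≤ s * q * (l + 5) := by
    have h1 : s ≤ s * q := Nat.le_mul_of_pos_right _ hq
    have h2 : q * e ≤ q * (s * (l + 4)) := Nat.mul_le_mul_left _ (by rw [he]; nlinarith)
    rw [hD]
    nlinarith
  have hsq : s ≤ s * q := Nat.le_mul_of_pos_right _ hq
  have hsq1 : 1 ≤ s * q := hs.trans hsq
  have key := abstract_step (P := D0 A) (P' := star U * D0 B * U)
    (Z := Dge A k * star U * X * U) (F := star U * diagonal f * U)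
    (Q' := star U * Dge B (s * q ^ 2) * U) (σ := (1 / 2) ^ (s + 2)) (e1 := (1 / 2) ^ (s + 2))
    (K := 2 ^ (l * D)) (τ := (1 / 2) ^ (s * q * ((l + 5) * (l + 7) * L)))
    (e3 := (1 / 2) ^ (s + 2)) (D0_star A) (by rw [D0_mul, union_idempotent])
    (by rw [star_mul, star_mul, star_star, D0_star, mul_assoc])
    (by
      calc _ = star U * (D0 B * D0 B) * U := by simp only [mul_assoc, hU1']
        _ = _ := by rw [D0_mul, union_idempotent])
    (by
      rw [CStarRing.norm_mul_mem_unitary _ hUu]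
      refine (norm_mul_le _ _).trans (mul_le_one₀ ?_ (norm_nonneg _) hX.1)
      rw [CStarRing.norm_mul_mem_unitary _ (Unitary.star_mem hUu)]
      exact norm_Dge_le _ _)
    (by positivity) (by positivity)
    (by
      have e1 : (star U * D0 B * U - star U * diagonal f * U) *
          (1 - star U * Dge B (s * q ^ 2) * U) =
          star U * ((D0 B - diagonal f) * (1 - Dge B (s * q ^ 2))) * U := by
        simp only [mul_sub, sub_mul, mul_assoc, hU1', mul_one]
      rw [e1, norm_conj hUu, D0, Dge, ← diagonal_one, diagonal_sub, diagonal_sub,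
        diagonal_mul_diagonal]
      apply norm_diagonal_le _ (by positivity)
      intro z
      simp only [i0]
      split_ifs with h1 h2 h2
      · simp [hf2 z h1]
      · simp [hf2 z h1]
      · simp
      · have h3 := hf3 z (by omega) (by omega)
        simp only [zero_sub, sub_zero, mul_one, norm_neg]
        refine h3.trans ?_
        have h4 : (N + 1 : ℝ) ^ s ≤ 2 ^ (l * s) := by
          rw [pow_mul]
          exact pow_le_pow_left₀ (by positivity) (by linarith [Nat.cast_nonneg (α := ℝ) N]) _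
        calc _ ≤ (2 : ℝ) ^ (l * s) * (2 / 2 ^ e) := by gcongr
          _ = 2 ^ (l * s + 1) * (1 / 2) ^ e := by
            rw [pow_succ, one_div, inv_pow]; ring
          _ ≤ _ := two_pow_half _ _ _ (by omega))
    (by
      have e1 : star U * D0 B * U - star U * diagonal f * U =
          star U * (D0 B - diagonal f) * U := by
        simp only [mul_sub, sub_mul]
      rw [e1, norm_conj hUu, D0, diagonal_sub]
      apply norm_diagonal_le _ (by positivity)
      intro z
      simp only [i0]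
      split_ifs with h1
      · simp [hf2 z h1]
      · simpa using (hf1.bound z).trans hK)
    (by
      have e1 : star U * Dge B (s * q ^ 2) * U * D0 A * (star U * D0 B * U) =
          star U * (Dge B (s * q ^ 2) * star (star U) * D0 A * (star U * D0 B)) * U := by
        simp only [mul_assoc, star_star]
      rw [e1, norm_conj hUu]
      exact hG _ hU.star B A)
    (by
      have h1 := hf1 ((normSeminorm ℂ (Op N)).comp (sand (Dge A k * star U) X (U * D0 A))) D
        ((1 / 2) ^ (l * D + s + 2)) (by positivity) (by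
          intro T hT
          apply hH U hU A (S ∪ T) _ (hX.mul (loc_mon T)) _ k (by omega)
          have h1 : (S ∪ T).card ≤ S.card + D := (card_union_le _ _).trans (by omega)
          have h2 : D + (l * D + s + 2) ≤ s * q * ((l + 5) * (l + 7)) := by
            have h3 : (l + 1) * D ≤ (l + 1) * (s * q * (l + 5)) := Nat.mul_le_mul_left _ hDle
            nlinarith
          calc _ ≤ (S.card + s * q * ((l + 5) * (l + 7))) * L :=
                Nat.mul_le_mul_right _ (by omega)
            _ = S.card * L + s * q * ((l + 5) * (l + 7) * L) := by ring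
            _ ≤ k := hk) ∅ (by simp)
      rw [mon_empty, one_mul] at h1
      have e1 : Dge A k * star U * X * U * (star U * diagonal f * U) * D0 A =
          Dge A k * star U * (X * diagonal f) * (U * D0 A) := by
        simp only [mul_assoc, hU1']
      rw [e1]
      refine le_trans h1 ?_
      calc _ ≤ (2 : ℝ) ^ (l * D) * (1 / 2) ^ (l * D + s + 2) := by gcongr
        _ ≤ _ := two_pow_half _ _ _ (by omega))
  have e1 : Dge A k * star U * X * U * (star U * D0 B * U) * D0 A =
      Dge A k * star U * (X * D0 B) * (U * D0 A) := by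
    simp only [mul_assoc, hU1']
  rw [e1] at key
  refine key.trans ?_
  have h3 : (2 : ℝ) ^ (l * D) * ((1 / 2) ^ (s * q * ((l + 5) * (l + 7) * L)) *
      (1 / (1 / 2) ^ (s + 2))) ≤ (1 / 2) ^ (s + 2) := by
    have h4 : l * D + (s + 2) + (s + 2) ≤ s * q * ((l + 5) * (l + 7) * L) := by
      have h5 : l * D ≤ l * (s * q * (l + 5)) := Nat.mul_le_mul_left _ hDle
      have h6 : s * q * ((l + 5) * (l + 7)) ≤ s * q * ((l + 5) * (l + 7) * L) :=
        Nat.mul_le_mul_left _ (Nat.le_mul_of_pos_right _ hL)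
      nlinarith
    have := two_pow_half _ _ _ h4
    refine le_trans (le_of_eq ?_) this
    rw [pow_add 2 (l * D), one_div ((1 / 2 : ℝ) ^ (s + 2)), ← inv_pow]
    norm_num
    ring
  have h4 : (1 / 2 : ℝ) ^ s = 4 * (1 / 2) ^ (s + 2) := by rw [pow_add]; ring
  linarith

theorem chain {d L l R : ℕ} (hH : HH N d L) (hl : 2 * N + 5 ≤ 2 ^ l) (hL : 1 ≤ L) (hR : 1 ≤ R) :
    ∀ i s : ℕ, 1 ≤ s → N < s * R ^ (i + 1) →
      Good N d (R * ((l + 5) * (l + 7) * L) ^ (2 * i) * s) s := by
  set G := (l + 5) * (l + 7) * L with hGdef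
  have hG : 1 ≤ G := Nat.mul_pos (by positivity) hL
  intro i
  induction i with
  | zero =>
    intro s _ h U _ A B
    rw [Dge_big A (by simpa [mul_comm] using h)]
    simp
  | succ i ih =>
    intro s hs h U hU A B
    have hρ : 1 ≤ G ^ (2 * i) := Nat.one_le_pow _ _ hG
    have hρ' : 1 ≤ G ^ (2 * (i + 1)) := Nat.one_le_pow _ _ hG
    have h1 := ih (R * G ^ (2 * (i + 1)) * s) (Nat.mul_pos (Nat.mul_pos hR hρ') hs) (by
      calc N < s * R ^ (i + 1 + 1) := h
        _ = R * 1 * s * R ^ (i + 1) := by ring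
        _ ≤ _ := by gcongr)
    have h2 := step hH hl hs (q := R * G ^ (2 * i) * G) (Nat.mul_pos (Nat.mul_pos hR hρ) hG) hL
      (by convert h1 using 1 <;> ring) U hU A ∅ B 1 (loc_one _) (R * G ^ (2 * (i + 1)) * s)
      (by simp only [card_empty, zero_mul, zero_add]; apply le_of_eq; ring)
    simpa using h2

theorem HH.hp {d L l R r : ℕ} (hH : HH N d L) (hl : 2 * N + 5 ≤ 2 ^ l) (hL : 1 ≤ L) (hR : 1 ≤ R)
    (hN : N < R ^ (r + 1)) : HP N d (R * ((l + 5) * (l + 7) * L) ^ (2 * (r + 1))) := by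
  have hc := chain hH hl hL hR r
  set G := (l + 5) * (l + 7) * L with hGdef
  have hG : 1 ≤ G := Nat.mul_pos (by positivity) hL
  have hρ : 1 ≤ G ^ (2 * r) := Nat.one_le_pow _ _ hG
  have hρ' : 1 ≤ G ^ (2 * (r + 1)) := Nat.one_le_pow _ _ hG
  intro U hU A S B X hX s k hs hk
  have hs' : 1 ≤ R * G ^ (2 * (r + 1)) * s := Nat.mul_pos (Nat.mul_pos hR hρ') hs
  have h1 := hc _ hs' (lt_of_lt_of_le hN (Nat.le_mul_of_pos_left _ hs'))
  refine step hH hl hs (q := R * G ^ (2 * r) * G) (Nat.mul_pos (Nat.mul_pos hR hρ) hG) hL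
    (by convert h1 using 1 <;> ring) U hU A S B X hX k (le_trans ?_ hk)
  have h2 : L ≤ R * G ^ (2 * (r + 1)) := by
    calc L ≤ G := Nat.le_mul_of_pos_left _ (by positivity)
      _ ≤ G ^ (2 * (r + 1)) := Nat.le_self_pow (by omega) _
      _ ≤ _ := Nat.le_mul_of_pos_left _ hR
  calc _ = S.card * L + s * (R * G ^ (2 * (r + 1))) := by rw [← hGdef]; ring
    _ ≤ S.card * (R * G ^ (2 * (r + 1))) + s * (R * G ^ (2 * (r + 1))) := by gcongr
    _ = _ := by ring

theorem exists_root {g q : ℕ} (hg : 2 ≤ g) (hq : 1 ≤ q) :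
    ∃ h : ℕ, 2 ≤ h ∧ g ≤ h ^ q ∧ h ^ q ≤ 2 ^ q * g := by
  classical
  have hex : ∃ h : ℕ, g ≤ h ^ q := ⟨g, Nat.le_self_pow (by omega) _⟩
  have h1 := Nat.find_spec hex
  set h := Nat.find hex with hh
  have h2 : 2 ≤ h := by
    by_contra h3
    have : h ^ q ≤ 1 ^ q := Nat.pow_le_pow_left (by omega) _
    rw [one_pow] at this
    omega
  refine ⟨h, h2, h1, ?_⟩
  have h3 : ¬ g ≤ (h - 1) ^ q := Nat.find_min hex (by omega)
  calc h ^ q ≤ (2 * (h - 1)) ^ q := Nat.pow_le_pow_left (by omega) _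
    _ = 2 ^ q * (h - 1) ^ q := mul_pow _ _ _
    _ ≤ _ := Nat.mul_le_mul_left _ (not_le.1 h3).le

theorem hh_all (d : ℕ) : ∀ t : ℕ, 1 ≤ t → ∃ C : ℕ, 1 ≤ C ∧ ∀ N g : ℕ, 2 ≤ g → N < g ^ t →
    HH N d (C * g) := by
  induction d with
  | zero => exact fun t _ => ⟨1, le_rfl, fun N g hg _ => hh_zero.mono (by omega)⟩
  | succ d ih =>
    intro t ht
    obtain ⟨C, hC, hCH⟩ := ih (24 * t * t) (Nat.mul_pos (by omega) ht)
    set c := (24 * t * t + 10) ^ 2 * C with hc
    refine ⟨5 * c ^ (4 * t) * 2 ^ (24 * t), Nat.succ_le_of_lt (by positivity),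
      fun N g hg hN => ?_⟩
    obtain ⟨h, h1, h2, h3⟩ := exists_root hg (q := 24 * t) (by omega)
    have hN' : N < h ^ (24 * t * t) := by
      rw [pow_mul]
      exact hN.trans_le (Nat.pow_le_pow_left h2 _)
    have hH := hCH N h h1 hN'
    have hl : 2 * N + 5 ≤ 2 ^ (24 * t * t * h + 3) := by
      have e1 : h ^ (24 * t * t) ≤ (2 ^ h) ^ (24 * t * t) :=
        Nat.pow_le_pow_left (Nat.lt_two_pow_self).le _
      rw [← pow_mul, mul_comm h] at e1
      rw [pow_add]
      omega
    obtain ⟨r, hr⟩ : ∃ r, 2 * t = r + 1 := ⟨2 * t - 1, by omega⟩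
    have hP := hH.hp (R := h ^ (12 * t)) (r := r) hl (Nat.mul_pos hC (by omega))
      (Nat.one_le_pow _ _ (by omega)) (by
        rw [← hr, ← pow_mul]
        convert hN' using 2
        ring)
    refine hP.succ.mono ?_
    have hG : (24 * t * t * h + 3 + 5) * (24 * t * t * h + 3 + 7) * (C * h) ≤ c * h ^ 3 := by
      have e1 : 24 * t * t * h + 3 + 7 ≤ (24 * t * t + 10) * h := by nlinarith
      calc _ ≤ ((24 * t * t + 10) * h) * ((24 * t * t + 10) * h) * (C * h) := by
            gcongr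
            omega
        _ = _ := by rw [hc]; ring
    rw [← hr]
    calc _ ≤ 5 * (h ^ (12 * t) * (c * h ^ 3) ^ (2 * (2 * t))) := by gcongr
      _ = 5 * c ^ (4 * t) * h ^ (24 * t) := by
          rw [mul_pow, ← pow_mul, show 2 * (2 * t) = 4 * t by ring,
            show 24 * t = 12 * t + 3 * (4 * t) by ring, pow_add]
          ring
      _ ≤ 5 * c ^ (4 * t) * (2 ^ (24 * t) * g) := by gcongr
      _ = _ := by ring

end Vale.Agent.P368
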