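import Vale.Agent.P368.Decomp

/-! The class of unitaries of bounded entangling depth and the weight growth estimate. -/

namespace Vale.Agent.P368

open Matrix Finset
open scoped Matrix.Norms.L2Operator

variable {N : ℕ}

/-- reflection about the zero state of the qubits in `g` -/
noncomputable def Rf (g : Finset (Fin N)) : Op N := 1 - (2 : ℂ) • D0 g

/-- sign function of a reflection -/
def sg (g : Finset (Fin N)) (z : Om N) : ℂ := if wt g z = 0 then -1 else 1

theorem Rf_eq (g : Finset (Fin N)) : Rf g = diagonal (sg g) := by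
  rw [Rf, D0, ← diagonal_one, ← diagonal_smul, diagonal_sub]
  congr 1
  funext z
  simp only [Pi.smul_apply, i0, sg, smul_eq_mul]
  split_ifs <;> norm_num

/-- a layer of reflections -/
def Lay (gs : List (Finset (Fin N))) : Op N := diagonal (fun z => (gs.map (fun g => sg g z)).prod)

theorem Lay_nil : Lay ([] : List (Finset (Fin N))) = 1 := by simp [Lay]

theorem Lay_cons (g : Finset (Fin N)) (gs : List (Finset (Fin N))) :
    Lay (g :: gs) = Rf g * Lay gs := by
  rw [Rf_eq, Lay, Lay, diagonal_mul_diagonal]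
  simp

theorem Lay_cons' (g : Finset (Fin N)) (gs : List (Finset (Fin N))) :
    Lay (g :: gs) = Lay gs * Rf g := by
  rw [Rf_eq, Lay, Lay, diagonal_mul_diagonal]
  simp [mul_comm]

theorem Rf_star (g : Finset (Fin N)) : star (Rf g) = Rf g := by
  simp [Rf, D0_star]

theorem Rf_mul_self (g : Finset (Fin N)) : Rf g * Rf g = 1 := by
  rw [Rf_eq, diagonal_mul_diagonal, ← diagonal_one]
  congr 1
  funext z
  simp only [sg]
  split_ifs <;> norm_num

theorem Rf_comm_D0 (g B : Finset (Fin N)) : Rf g * D0 B = D0 B * Rf g := by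
  rw [Rf_eq, D0, diagonal_mul_diagonal, diagonal_mul_diagonal]
  simp [mul_comm]

theorem Lay_star (gs : List (Finset (Fin N))) : star (Lay gs) = Lay gs := by
  induction gs with
  | nil => simp [Lay_nil]
  | cons g gs ih => rw [Lay_cons, star_mul, ih, Rf_star, ← Lay_cons', Lay_cons]

theorem Lay_mul_self (gs : List (Finset (Fin N))) : Lay gs * Lay gs = 1 := by
  induction gs with
  | nil => simp [Lay_nil]
  | cons g gs ih =>
    conv_lhs => enter [1]; rw [Lay_cons]
    rw [Lay_cons', mul_assoc, ← mul_assoc (Lay gs), ih, one_mul, Rf_mul_self]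

theorem Lay_unitary (gs : List (Finset (Fin N))) : Lay gs ∈ unitary (Op N) := by
  rw [Unitary.mem_iff, Lay_star, Lay_mul_self]
  exact ⟨rfl, rfl⟩

/-- unitaries with at most `d` layers of reflections -/
def UC : ℕ → Op N → Prop
  | 0, U => ∃ u : Fin N → Q1, (∀ i, u i ∈ unitary Q1) ∧ U = tens u
  | d + 1, U => ∃ u : Fin N → Q1, (∀ i, u i ∈ unitary Q1) ∧
      ∃ gs : List (Finset (Fin N)), gs.Pairwise Disjoint ∧
        ∃ U', UC d U' ∧ U = tens u * Lay gs * U'

theorem UC.unitary : ∀ {d : ℕ} {U : Op N}, UC d U → U ∈ unitary (Op N)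
  | 0, _, ⟨_, hu, h⟩ => h ▸ tens_unitary hu
  | _ + 1, _, ⟨_, hu, gs, _, _, h', h⟩ =>
    h ▸ mul_mem (mul_mem (tens_unitary hu) (Lay_unitary gs)) h'.unitary

theorem UC.tens_left {u : Fin N → Q1} (hu : ∀ i, u i ∈ _root_.unitary Q1) :
    ∀ {d : ℕ} {U : Op N}, UC d U → UC d (tens u * U)
  | 0, _, ⟨v, hv, h⟩ => ⟨_, fun i => mul_mem (hu i) (hv i), by rw [h, tens_mul]⟩
  | _ + 1, _, ⟨v, hv, gs, hg, U', h', h⟩ =>
    ⟨_, fun i => mul_mem (hu i) (hv i), gs, hg, U', h', by
      rw [h, ← tens_mul]; simp only [mul_assoc]⟩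

theorem UC.tens_right {u : Fin N → Q1} (hu : ∀ i, u i ∈ _root_.unitary Q1) :
    ∀ {d : ℕ} {U : Op N}, UC d U → UC d (U * tens u)
  | 0, _, ⟨v, hv, h⟩ => ⟨_, fun i => mul_mem (hv i) (hu i), by rw [h, tens_mul]⟩
  | _ + 1, _, ⟨v, hv, gs, hg, U', h', h⟩ =>
    ⟨v, hv, gs, hg, _, h'.tens_right hu, by rw [h]; simp only [mul_assoc]⟩

theorem UC.lay_right {gs : List (Finset (Fin N))} (hg : gs.Pairwise Disjoint) :
    ∀ {d : ℕ} {U : Op N}, UC d U → UC (d + 1) (U * Lay gs)
  | 0, _, ⟨v, hv, h⟩ => ⟨v, hv, gs, hg, 1, ⟨fun _ => 1, fun _ => one_mem _, tens_one.symm⟩, by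
      rw [h, mul_one]⟩
  | _ + 1, _, ⟨v, hv, gs', hg', U', h', h⟩ =>
    ⟨v, hv, gs', hg', _, h'.lay_right hg, by rw [h]; simp only [mul_assoc]⟩

theorem UC.lay_left {gs : List (Finset (Fin N))} (hg : gs.Pairwise Disjoint) {d : ℕ} {U : Op N}
    (h : UC d U) : UC (d + 1) (Lay gs * U) :=
  ⟨fun _ => 1, fun _ => one_mem _, gs, hg, U, h, by rw [tens_one, one_mul]⟩

theorem UC.star : ∀ {d : ℕ} {U : Op N}, UC d U → UC d (star U)
  | 0, _, ⟨v, hv, h⟩ => ⟨_, fun i => Unitary.star_mem (hv i), by rw [h, tens_star]⟩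
  | _ + 1, _, ⟨v, hv, gs, hg, U', h', h⟩ => by
    rw [h, star_mul, star_mul, Lay_star, tens_star, ← mul_assoc]
    exact (h'.star.lay_right hg).tens_right fun i => Unitary.star_mem (hv i)

theorem UC.succ {d : ℕ} {U : Op N} (h : UC d U) : UC (d + 1) U := by
  simpa [Lay_nil] using h.lay_left List.Pairwise.nil

theorem UC.mono {d d' : ℕ} {U : Op N} (h : UC d U) (hd : d ≤ d') : UC d' U := by
  induction hd with
  | refl => exact h
  | step _ ih => exact ih.succ

theorem uc_one : UC 0 (1 : Op N) := ⟨fun _ => 1, fun _ => one_mem _, tens_one.symm⟩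

/-- weight growth of evolved local operators -/
def HH (N d L : ℕ) : Prop :=
  ∀ U : Op N, UC d U → ∀ (A S : Finset (Fin N)) (X : Op N), Loc S X → ∀ s k : ℕ, 1 ≤ s →
    (S.card + s) * L ≤ k → ‖Dge A k * star U * X * (U * D0 A)‖ ≤ (1 / 2) ^ s

/-- weight growth of evolved local operators times product projectors -/
def HP (N d L : ℕ) : Prop :=
  ∀ U : Op N, UC d U → ∀ (A S B : Finset (Fin N)) (X : Op N), Loc S X → ∀ s k : ℕ, 1 ≤ s →
    (S.card + s) * L ≤ k → ‖Dge A k * star U * (X * D0 B) * (U * D0 A)‖ ≤ (1 / 2) ^ s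

/-- tail bound for evolved product projectors -/
def Good (N d k s : ℕ) : Prop :=
  ∀ U : Op N, UC d U → ∀ A B : Finset (Fin N),
    ‖Dge A k * star U * D0 B * (U * D0 A)‖ ≤ (1 / 2) ^ s

theorem HH.mono {d L L' : ℕ} (h : HH N d L) (hL : L ≤ L') : HH N d L' :=
  fun U hU A S X hX s k hs hk => h U hU A S X hX s k hs ((Nat.mul_le_mul_left _ hL).trans hk)

theorem hh_zero : HH N 0 1 := by
  rintro U ⟨u, hu, rfl⟩ A S X hX s k hs hk
  have := (hX.conj hu).vanish (A := A) (k := k) (by omega)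
  have e : Dge A k * star (tens u) * X * (tens u * D0 A) =
      Dge A k * (star (tens u) * X * tens u) * D0 A := by simp only [mul_assoc]
  rw [e, this, norm_zero]
  positivity

theorem gate_step {S : Finset (Fin N)} {A C : Op N} {ε : ℝ} (hε : 0 ≤ ε)
    (h : ∀ X B, Loc S X → ‖A * (X * D0 B) * C‖ ≤ ε) (g : Finset (Fin N)) :
    ∀ X B, Loc S X → ‖A * (Rf g * (X * D0 B) * Rf g) * C‖ ≤ 9 ^ (g ∩ S).card * ε := by
  intro X B hX
  by_cases hd : Disjoint g S
  · have e1 : Rf g * X = X * Rf g := by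
      simp only [Rf, sub_mul, mul_sub, one_mul, mul_one, smul_mul_assoc, mul_smul_comm,
        hX.comm_D0 hd]
    have e2 : Rf g * (X * D0 B) * Rf g = X * D0 B := by
      rw [← mul_assoc, e1, mul_assoc X, Rf_comm_D0, mul_assoc, mul_assoc, Rf_mul_self, mul_one]
    rw [e2, disjoint_iff_inter_eq_empty.1 hd]
    simpa using h X B hX
  · have hc : 1 ≤ (g ∩ S).card := by
      rw [Nat.one_le_iff_ne_zero, Ne, card_eq_zero]
      exact fun h => hd (disjoint_iff_inter_eq_empty.2 h)
    set E := D0 (g ∩ S) with hE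
    set F := D0 (g \ S) with hF
    have hEl : Loc S E := (loc_D0 _).mono inter_subset_right
    have hg : D0 g = E * F := by
      rw [hE, hF, D0_mul, union_comm, sdiff_union_inter]
    have c1 : F * X = X * F := hX.comm_D0 sdiff_disjoint
    have c2 : F * E = E * F := by rw [hE, hF, D0_mul, D0_mul, union_comm]
    have c3 : D0 B * E = E * D0 B := by rw [hE, D0_mul, D0_mul, union_comm]
    have c4 : F * D0 B = D0 (g \ S ∪ B) := by rw [hF, D0_mul]
    have c5 : D0 B * F = D0 (g \ S ∪ B) := by rw [hF, D0_mul, union_comm]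
    have c6 : F * D0 (g \ S ∪ B) = D0 (g \ S ∪ B) := by
      rw [hF, D0_mul, ← union_assoc, union_idempotent]
    set G := D0 (g \ S ∪ B) with hG
    have t1 : D0 g * (X * D0 B) = (E * X) * G := by
      rw [hg, mul_assoc, ← mul_assoc F, c1, mul_assoc X, c4, mul_assoc]
    have t2 : X * D0 B * D0 g = (X * E) * G := by
      rw [hg, mul_assoc, ← mul_assoc (D0 B), c3, mul_assoc E, c5, mul_assoc]
    have t3 : D0 g * (X * D0 B * D0 g) = (E * X * E) * G := by
      rw [t2, hg, mul_assoc, ← mul_assoc F, ← mul_assoc F, c1, mul_assoc X, c2, mul_assoc X,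
        mul_assoc E F, c6]
      simp only [mul_assoc]
    have e : A * (Rf g * (X * D0 B) * Rf g) * C = A * (X * D0 B) * C -
        (2 : ℂ) • (A * ((E * X) * G) * C) - (2 : ℂ) • (A * ((X * E) * G) * C) +
        (4 : ℂ) • (A * ((E * X * E) * G) * C) := by
      rw [← t1, ← t2, ← t3, Rf]
      simp only [sub_mul, mul_sub, one_mul, mul_one, smul_mul_assoc, mul_smul_comm, smul_sub,
        smul_smul, mul_assoc]
      module
    have n0 := h X B hX
    have n1 := h (E * X) (g \ S ∪ B) (hEl.mul' hX)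
    have n2 := h (X * E) (g \ S ∪ B) (hX.mul' hEl)
    have n3 := h (E * X * E) (g \ S ∪ B) ((hEl.mul' hX).mul' hEl)
    rw [← hG] at n1 n2 n3
    have h9 : (9 : ℝ) ≤ 9 ^ (g ∩ S).card := le_self_pow₀ (by norm_num) (by omega)
    rw [e]
    calc _ ≤ ‖A * (X * D0 B) * C‖ + ‖(2 : ℂ) • (A * ((E * X) * G) * C)‖ +
        ‖(2 : ℂ) • (A * ((X * E) * G) * C)‖ + ‖(4 : ℂ) • (A * ((E * X * E) * G) * C)‖ := by
          refine (norm_add_le _ _).trans (add_le_add_left ?_ _)
          refine (norm_sub_le _ _).trans (add_le_add_left ?_ _)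
          exact norm_sub_le _ _
      _ ≤ 9 * ε := by
          simp only [norm_smul, Complex.norm_ofNat]
          linarith
      _ ≤ _ := mul_le_mul_of_nonneg_right h9 hε

theorem layer_step {S : Finset (Fin N)} {ε : ℝ} (hε : 0 ≤ ε) (gs : List (Finset (Fin N)))
    {A C : Op N} (h : ∀ X B, Loc S X → ‖A * (X * D0 B) * C‖ ≤ ε) :
    ∀ X B, Loc S X → ‖A * Lay gs * (X * D0 B) * (Lay gs * C)‖ ≤
      9 ^ (gs.map (fun g => (g ∩ S).card)).sum * ε := by
  induction gs with
  | nil => simpa [Lay_nil] using h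
  | cons g gs ih =>
    intro X B hX
    have := gate_step (by positivity) ih g X B hX
    rw [List.map_cons, List.sum_cons, pow_add, mul_assoc ((9 : ℝ) ^ _)]
    convert this using 2
    conv_lhs => enter [1, 1, 2]; rw [Lay_cons']
    rw [Lay_cons]
    simp only [mul_assoc]

theorem sum_card_inter_le (gs : List (Finset (Fin N))) (hg : gs.Pairwise Disjoint)
    (S : Finset (Fin N)) : (gs.map (fun g => (g ∩ S).card)).sum ≤ S.card := by
  induction gs generalizing S with
  | nil => simp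
  | cons g gs ih =>
    rw [List.pairwise_cons] at hg
    have h1 : gs.map (fun g' => (g' ∩ S).card) = gs.map (fun g' => (g' ∩ (S \ g)).card) := by
      apply List.map_congr_left
      intro g' hg'
      congr 1
      ext i
      simp only [mem_inter, mem_sdiff]
      constructor
      · rintro ⟨h1, h2⟩
        exact ⟨h1, h2, fun h3 => disjoint_left.1 (hg.1 g' hg') h3 h1⟩
      · rintro ⟨h1, h2, -⟩
        exact ⟨h1, h2⟩
    rw [List.map_cons, List.sum_cons, h1]
    have h2 := ih hg.2 (S \ g)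
    have h3 := card_sdiff_add_card_inter S g
    rw [inter_comm] at h3
    omega

theorem HP.succ {d L : ℕ} (h : HP N d L) : HH N (d + 1) (5 * L) := by
  rintro U ⟨u, hu, gs, hg, U', hU', rfl⟩ A S X hX s k hs hk
  have h1 := layer_step (S := S) (ε := (1 / 2) ^ (s + 4 * S.card)) (by positivity) gs
    (A := Dge A k * star U') (C := U' * D0 A) (fun Y B hY =>
      h U' hU' A S B Y hY _ k (by omega) (by nlinarith)) _ ∅ (hX.conj hu)
  have e : Dge A k * star (tens u * Lay gs * U') * X * (tens u * Lay gs * U' * D0 A) =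
      Dge A k * star U' * Lay gs * (star (tens u) * X * tens u * D0 ∅) *
        (Lay gs * (U' * D0 A)) := by
    rw [star_mul, star_mul, Lay_star, D0_empty]
    simp only [mul_assoc, mul_one]
  rw [e]
  refine h1.trans ?_
  have h2 : (9 : ℝ) ^ (gs.map (fun g => (g ∩ S).card)).sum ≤ 16 ^ S.card :=
    (pow_le_pow_right₀ (by norm_num) (sum_card_inter_le gs hg S)).trans
      (pow_le_pow_left₀ (by norm_num) (by norm_num) _)
  calc _ ≤ 16 ^ S.card * (1 / 2 : ℝ) ^ (s + 4 * S.card) := by gcongr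
    _ = _ := by
      rw [pow_add, pow_mul, mul_left_comm, ← mul_pow]
      norm_num

end Vale.Agent.P368
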