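import Vale.Agent.P368.Low

/-! Decomposition of one projector relative to another one, and the abstract step. -/

namespace Vale.Agent.P368

open Matrix Finset
open scoped Matrix.Norms.L2Operator MatrixOrder ComplexOrder

variable {N : ℕ}

theorem norm_le_one_of_sum {f g h : Op N} (H : star f * f + star g * g + star h * h = 1) :
    ‖f‖ ≤ 1 := by
  have h1 : star f * f ≤ 1 := by
    rw [← H, add_assoc]
    exact le_add_of_nonneg_right (add_nonneg (star_mul_self_nonneg g) (star_mul_self_nonneg h))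
  have h2 := CStarAlgebra.norm_le_norm_of_nonneg_of_le (star_mul_self_nonneg f) h1
  rw [CStarRing.norm_star_mul_self, norm_one] at h2
  nlinarith [norm_nonneg f]

theorem norm_proj_le {P : Op N} (h1 : star P = P) (h2 : P * P = P) : ‖P‖ ≤ 1 := by
  have := CStarRing.norm_star_mul_self (x := P)
  rw [h1, h2] at this
  by_contra h
  have h3 : 1 < ‖P‖ := not_le.1 h
  nlinarith

theorem decomp {P P' : Op N} (h1 : star P = P) (h2 : P * P = P) (h1' : star P' = P')
    (_h2' : P' * P' = P') {σ : ℝ} (hσ : 0 < σ) :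
    ∃ Y X : Op N, P = P * P' * Y + X ∧ ‖Y‖ ≤ 1 / σ ∧ ‖P' * X‖ ≤ σ ∧ ‖P * P' * Y‖ ≤ 1 := by
  set B := P' * P with hB
  have hBs : star B = P * P' := by rw [hB, star_mul, h1, h1']
  set T := star B * B with hT
  have hTs : star T = T := by rw [hT, star_mul, star_star]
  set s : ℂ := (σ : ℂ) with hs
  have hss : star s = s := by simp [hs]
  set M : Op N := T + (s * s) • (1 : Op N) with hM
  have hMs : star M = M := by
    rw [hM, star_add, hTs, star_smul, star_mul, hss, star_one]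
  have hMu : IsUnit M := by
    apply Matrix.PosDef.isUnit
    apply Matrix.PosDef.posSemidef_add (posSemidef_conjTranspose_mul_self B)
    apply Matrix.PosDef.smul Matrix.PosDef.one
    rw [hs, ← Complex.ofReal_mul]
    exact_mod_cast mul_pos hσ hσ
  obtain ⟨V, hV1, hV2⟩ : ∃ V : Op N, M * V = 1 ∧ V * M = 1 :=
    ⟨↑hMu.unit⁻¹, hMu.mul_val_inv, hMu.val_inv_mul⟩
  have hVs : star V = V := by
    have : star V * M = 1 := by rw [← hMs, ← star_mul, hV1, star_one]
    calc star V = star V * (M * V) := by rw [hV1, mul_one]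
      _ = V := by rw [← mul_assoc, this, one_mul]
  set r : ℂ := ((√2 * σ : ℝ) : ℂ) with hr
  have hrs : star r = r := by simp [hr]
  have hrr : r * r = 2 * (s * s) := by
    rw [hr, hs, ← Complex.ofReal_mul, ← Complex.ofReal_mul]
    have : √2 * σ * (√2 * σ) = 2 * (σ * σ) := by
      have := Real.mul_self_sqrt (show (0 : ℝ) ≤ 2 by norm_num)
      linear_combination (σ * σ) * this
    rw [this]
    push_cast
    ring
  have key : star (T * V) * (T * V) + star (r • (B * V)) * (r • (B * V)) +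
      star ((s * s) • V) * ((s * s) • V) = 1 := by
    have e1 : V * M * (M * V) = 1 := by rw [hV1, hV2, mul_one]
    rw [← e1, hM]
    simp only [star_mul, star_smul, hTs, hVs, hrs, hss, hrr, mul_add, add_mul,
      mul_smul_comm, smul_mul_assoc, mul_one, one_mul, smul_smul, smul_add]
    have e2 : V * star B * (B * V) = V * T * V := by rw [hT]; noncomm_ring
    have e3 : V * (T * V) = V * T * V := by noncomm_ring
    rw [e2, e3]
    module
  have n1 : ‖T * V‖ ≤ 1 := norm_le_one_of_sum key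
  have n2 : ‖r • (B * V)‖ ≤ 1 :=
    norm_le_one_of_sum (g := T * V) (h := (s * s) • V) (by rw [← key]; abel)
  have n3 : ‖B * V‖ ≤ 1 / σ := by
    rw [norm_smul, hr, Complex.norm_real, Real.norm_eq_abs, abs_of_pos (by positivity)] at n2
    rw [le_div_iff₀ hσ]
    have : 1 ≤ √2 := Real.one_le_sqrt.2 (by norm_num)
    have h3 : 0 ≤ σ * ‖B * V‖ := by positivity
    nlinarith
  have nP := norm_proj_le h1 h2
  have n4 : ‖B * V * P‖ ≤ 1 / σ :=
    (norm_mul_le _ _).trans ((mul_le_mul n3 nP (norm_nonneg _) (by positivity)).trans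
      (by rw [mul_one]))
  have hPT : P * T = T := by
    rw [hT, hBs, ← mul_assoc P (P * P') B, ← mul_assoc P P P', h2]
  have e4 : P * P' * (B * V * P) = T * V * P := by
    rw [hT, hBs]; noncomm_ring
  refine ⟨B * V * P, (s * s) • (P * V * P), ?_, n4, ?_, ?_⟩
  · rw [e4]
    calc P = P * (M * V) * P := by rw [hV1, mul_one, h2]
      _ = P * T * V * P + (s * s) • (P * V * P) := by
        rw [hM]
        simp only [mul_add, add_mul, mul_smul_comm, smul_mul_assoc, one_mul, mul_assoc]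
      _ = _ := by rw [hPT]
  · have : P' * ((s * s) • (P * V * P)) = (s * s) • (B * V * P) := by
      rw [mul_smul_comm, hB]
      congr 1
      noncomm_ring
    rw [this, norm_smul, norm_mul, hs, Complex.norm_real, Real.norm_eq_abs, abs_of_pos hσ]
    calc σ * σ * ‖B * V * P‖ ≤ σ * σ * (1 / σ) := by gcongr
      _ = σ := by field_simp
  · rw [e4]
    exact (norm_mul_le _ _).trans (mul_le_one₀ n1 (norm_nonneg _) nP)

/-- the abstract approximation step -/
theorem abstract_step {P P' Z F Q' : Op N} (h1 : star P = P) (h2 : P * P = P)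
    (h1' : star P' = P') (h2' : P' * P' = P') (hZ : ‖Z‖ ≤ 1) {σ e1 K τ e3 : ℝ} (hσ : 0 < σ)
    (hK : 0 ≤ K) (a1 : ‖(P' - F) * (1 - Q')‖ ≤ e1) (a2 : ‖P' - F‖ ≤ K)
    (a3 : ‖Q' * P * P'‖ ≤ τ) (a4 : ‖Z * F * P‖ ≤ e3) :
    ‖Z * P' * P‖ ≤ σ + e1 + K * (τ * (1 / σ)) + e3 := by
  obtain ⟨Y, X, e, n1, n2, n3⟩ := decomp h1 h2 h1' h2' hσ
  have hτ : 0 ≤ τ := (norm_nonneg _).trans a3
  have he1 : 0 ≤ e1 := (norm_nonneg _).trans a1
  have he3 : 0 ≤ e3 := (norm_nonneg _).trans a4
  set W := P * P' * Y with hW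
  have hPW : P * W = W := by rw [hW, ← mul_assoc, ← mul_assoc, h2]
  have e' : Z * P' * P = Z * (P' * X) + Z * ((P' - F) * (1 - Q') * W) +
      Z * ((P' - F) * (Q' * P * P' * Y)) + Z * F * P * W := by
    have e2 : Q' * P * P' * Y = Q' * W := by rw [hW]; noncomm_ring
    rw [e2, mul_assoc (Z * F), hPW]
    conv_lhs => rw [e]
    noncomm_ring
  rw [e']
  have hZ' : ∀ M : Op N, ‖Z * M‖ ≤ ‖M‖ := fun M =>
    (norm_mul_le _ _).trans (mul_le_of_le_one_left (norm_nonneg _) hZ)
  have b1 : ‖Z * (P' * X)‖ ≤ σ := (hZ' _).trans n2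
  have b2 : ‖Z * ((P' - F) * (1 - Q') * W)‖ ≤ e1 :=
    (hZ' _).trans ((norm_mul_le _ _).trans
      ((mul_le_mul a1 n3 (norm_nonneg _) he1).trans (by rw [mul_one])))
  have b3 : ‖Z * ((P' - F) * (Q' * P * P' * Y))‖ ≤ K * (τ * (1 / σ)) :=
    (hZ' _).trans ((norm_mul_le _ _).trans (mul_le_mul a2
      ((norm_mul_le _ _).trans (mul_le_mul a3 n1 (norm_nonneg _) hτ)) (norm_nonneg _) hK))
  have b4 : ‖Z * F * P * W‖ ≤ e3 :=
    (norm_mul_le _ _).trans ((mul_le_mul a4 n3 (norm_nonneg _) he3).trans (by rw [mul_one]))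
  calc _ ≤ ‖Z * (P' * X)‖ + ‖Z * ((P' - F) * (1 - Q') * W)‖ +
      ‖Z * ((P' - F) * (Q' * P * P' * Y))‖ + ‖Z * F * P * W‖ :=
        norm_add₄_le
    _ ≤ _ := by linarith

end Vale.Agent.P368
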