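import Mathlib

/-! The circuit model: one-qubit unitaries and generalized Toffoli gates in layers. -/

namespace Vale.Agent.P368

/-- gates on `N` qubits: a one-qubit unitary on qubit `q`, or a generalized Toffoli gate with a
nonempty set of controls `C` and a target `b` outside `C` -/
inductive Gate (N : ℕ) : Type
  | one (q : Fin N) (u : Matrix.unitaryGroup Bool ℂ) : Gate N
  | toffoli (C : Finset (Fin N)) (b : Fin N) (hC : C.Nonempty) (hb : b ∉ C) : Gate N

/-- the qubits a gate acts on -/
def Gate.support {N : ℕ} : Gate N → Finset (Fin N)
  | .one q _ => {q}
  | .toffoli C b _ _ => insert b C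

/-- whether a gate is a multiqubit gate -/
def Gate.isMulti {N : ℕ} : Gate N → Bool
  | .one _ _ => false
  | .toffoli _ _ _ _ => true

/-- the matrix of a gate in the computational basis; the entry at `(z', z)` is the amplitude of
`z'` in the image of `z` -/
def Gate.mat {N : ℕ} : Gate N → Matrix (Fin N → Bool) (Fin N → Bool) ℂ
  | .one q u => fun z' z =>
      if ∀ i, i ≠ q → z' i = z i then (u : Matrix Bool Bool ℂ) (z' q) (z q) else 0
  | .toffoli C b _ _ => fun z' z =>
      if z' = Function.update z b (xor (z b) (decide (∀ i ∈ C, z i = true))) then 1 else 0

/-- a layer: gates with pairwise disjoint supports -/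
structure Layer (N : ℕ) : Type where
  gates : List (Gate N)
  disjoint : gates.Pairwise (fun g h => Disjoint g.support h.support)

/-- the matrix of a layer -/
def Layer.mat {N : ℕ} (L : Layer N) : Matrix (Fin N → Bool) (Fin N → Bool) ℂ :=
  (L.gates.map Gate.mat).prod

/-- the matrix of a circuit, given as the list of its layers, the first one applied first -/
def circuitMat {N : ℕ} : List (Layer N) → Matrix (Fin N → Bool) (Fin N → Bool) ℂ
  | [] => 1
  | L :: C => circuitMat C * L.mat

/-- the number of layers containing a multiqubit gate -/
def entanglingDepth {N : ℕ} (C : List (Layer N)) : ℕ :=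
  C.countP (fun L => L.gates.any Gate.isMulti)

/-- the initial basis state: the input followed by zeros -/
def inputState {n : ℕ} (N : ℕ) (x : Fin n → Bool) : Fin N → Bool :=
  fun i => if h : i.val < n then x ⟨i.val, h⟩ else false

/-- the parity of the input bits -/
def parity {n : ℕ} (x : Fin n → Bool) : Bool :=
  decide (Odd (Finset.univ.filter (fun i => x i = true)).card)

/-- probability that measuring qubit `out` after the circuit on input `x` gives `b` -/
noncomputable def outProb {n N : ℕ} (C : List (Layer N)) (out : Fin N) (x : Fin n → Bool)
    (b : Bool) : ℝ :=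
  ∑ z ∈ Finset.univ.filter (fun z : Fin N → Bool => z out = b),
    ‖circuitMat C z (inputState N x)‖ ^ 2

/-- average over uniform inputs of the probability of being correct minus that of being wrong -/
noncomputable def parityCorrelation (n : ℕ) {N : ℕ} (C : List (Layer N)) (out : Fin N) : ℝ :=
  (∑ x : Fin n → Bool, (outProb C out x (parity x) - outProb C out x (!parity x))) / 2 ^ n

/-- the action of the fanout unitary on basis states of `n + 1` qubits, the last being the
control -/
def fanout {n : ℕ} (y : Fin (n + 1) → Bool) : Fin (n + 1) → Bool :=
  fun i => if i = Fin.last n then y i else xor (y i) (y (Fin.last n))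

end Vale.Agent.P368
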