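import Vale.Agent.P368.Parity

/-! Choice of parameters for polynomially many qubits. -/

namespace Vale.Agent.P368

open Filter

theorem poly_le (p : Polynomial ℕ) : ∃ c : ℕ, ∀ n : ℕ, 2 ≤ n → p.eval n ≤ n ^ c := by
  induction p using Polynomial.induction_on' with
  | add p q hp hq =>
    obtain ⟨a, ha⟩ := hp
    obtain ⟨b, hb⟩ := hq
    refine ⟨a + b + 1, fun n hn => ?_⟩
    have h1 : n ^ a ≤ n ^ (a + b) := Nat.pow_le_pow_right (by omega) (by omega)
    have h2 : n ^ b ≤ n ^ (a + b) := Nat.pow_le_pow_right (by omega) (by omega)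
    have h3 := ha n hn
    have h4 := hb n hn
    rw [Polynomial.eval_add, pow_succ]
    nlinarith
  | monomial k a =>
    refine ⟨a + k, fun n hn => ?_⟩
    rw [Polynomial.eval_monomial, pow_add]
    exact Nat.mul_le_mul_right _ ((Nat.lt_two_pow_self).le.trans (Nat.pow_le_pow_left hn _))

theorem eventually_rpow {a : ℝ} (ha : 0 < a) (M : ℝ) :
    ∃ n₀ : ℕ, ∀ n : ℕ, n₀ ≤ n → M ≤ (n : ℝ) ^ a := by
  have := ((tendsto_rpow_atTop ha).comp tendsto_natCast_atTop_atTop).eventually_ge_atTop M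
  exact eventually_atTop.1 this

theorem params (d : ℕ) (p : Polynomial ℕ) {η : ℝ} (h0 : 0 < η) (h1 : η ≤ 1) :
    ∃ n₀ : ℕ, ∀ n N : ℕ, n₀ ≤ n → N ≤ p.eval n → ∃ L s : ℕ, HH N d L ∧ 1 ≤ s ∧
      (1 + s) * L ≤ n ∧ (n : ℝ) ^ (1 - η) ≤ s := by
  obtain ⟨c, hc⟩ := poly_le p
  obtain ⟨t, ht⟩ := exists_nat_ge (c / (η / 2))
  obtain ⟨C, hC, hH⟩ := hh_all d (t + 1) (by omega)
  obtain ⟨n₀, hn₀⟩ := eventually_rpow (half_pos h0) (9 * C)
  refine ⟨max n₀ 2, fun n N hn hN => ?_⟩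
  have hn2 : 2 ≤ n := (le_max_right _ _).trans hn
  have hn1 : (1 : ℝ) ≤ n := by exact_mod_cast (by omega : 1 ≤ n)
  have hn0 : (0 : ℝ) < n := by linarith
  have hA := hn₀ n ((le_max_left _ _).trans hn)
  set a := (n : ℝ) ^ (η / 2) with ha
  set b := (n : ℝ) ^ (1 - η) with hb
  have ha1 : 1 ≤ a := Real.one_le_rpow hn1 (by linarith)
  have hb1 : 1 ≤ b := Real.one_le_rpow hn1 (by linarith)
  have hab : a * b * a = n := by
    rw [ha, hb, ← Real.rpow_add hn0, ← Real.rpow_add hn0]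
    ring_nf
    exact Real.rpow_one _
  refine ⟨C * (⌊a⌋₊ + 2), ⌈b⌉₊, hH N _ (by omega) ?_, Nat.one_le_iff_ne_zero.2 ?_, ?_,
    Nat.le_ceil _⟩
  · have e1 : ((n ^ c : ℕ) : ℝ) ≤ a ^ (t + 1) := by
      rw [ha, ← Real.rpow_natCast, ← Real.rpow_mul hn0.le]
      push_cast
      rw [← Real.rpow_natCast]
      apply Real.rpow_le_rpow_of_exponent_le hn1
      rw [div_le_iff₀ (half_pos h0)] at ht
      nlinarith
    have e2 : a ^ (t + 1) < (((⌊a⌋₊ + 2) ^ (t + 1) : ℕ) : ℝ) := by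
      push_cast
      apply pow_lt_pow_left₀ _ (by linarith) (by omega)
      linarith [Nat.lt_floor_add_one a]
    exact lt_of_le_of_lt (hN.trans (hc n hn2)) (by exact_mod_cast e1.trans_lt e2)
  · rw [Ne, Nat.ceil_eq_zero]
    linarith
  · have e1 : (⌊a⌋₊ : ℝ) ≤ a := Nat.floor_le (by linarith)
    have e2 : (⌈b⌉₊ : ℝ) < b + 1 := Nat.ceil_lt_add_one (by linarith)
    have hC0 : (0 : ℝ) ≤ C := Nat.cast_nonneg _
    have : (((1 + ⌈b⌉₊) * (C * (⌊a⌋₊ + 2)) : ℕ) : ℝ) ≤ n := by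
      push_cast
      calc _ ≤ (3 * b) * (C * (3 * a)) := by
            gcongr
            · linarith
            · linarith
        _ = (9 * C) * b * a := by ring
        _ ≤ a * b * a := by gcongr
        _ = n := hab
    exact_mod_cast this

theorem average_case (d : ℕ) (p : Polynomial ℕ) (η : ℝ) (h0 : 0 < η) :
    ∃ n₀ : ℕ, ∀ n N : ℕ, n₀ ≤ n → n ≤ N → N ≤ p.eval n →
      ∀ (C : List (Layer N)) (out : Fin N), entanglingDepth C ≤ d →
        |parityCorrelation n C out| ≤ (2 : ℝ) ^ (-((n : ℝ) ^ (1 - η))) := by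
  obtain ⟨n₀, h⟩ := params d p (lt_min h0 one_pos) (min_le_right η 1)
  refine ⟨max n₀ 1, fun n N hn hnN hN C out hC => ?_⟩
  obtain ⟨L, s, h1, h2, h3, h4⟩ := h n N ((le_max_left _ _).trans hn) hN
  refine (corr_bound h1 hnN h2 h3 C hC out).trans ?_
  have hn1 : (1 : ℝ) ≤ n := by exact_mod_cast (le_max_right _ _).trans hn
  rw [one_div, inv_pow, ← Real.rpow_natCast, ← Real.rpow_neg (by norm_num)]
  apply Real.rpow_le_rpow_of_exponent_le (by norm_num)
  have := Real.rpow_le_rpow_of_exponent_le hn1 (show 1 - η ≤ 1 - min η 1 by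
    linarith [min_le_left η 1])
  linarith

theorem worst_case (d : ℕ) (p : Polynomial ℕ) (ε : ℝ) (h0 : 0 < ε) :
    ∃ n₀ : ℕ, ∀ n N : ℕ, n₀ ≤ n → n ≤ N → N ≤ p.eval n →
      ∀ (C : List (Layer N)) (out : Fin N), C.length ≤ d →
        ¬ ∀ x : Fin n → Bool, 1 / 2 + ε ≤ outProb C out x (parity x) := by
  obtain ⟨n₀, h⟩ := params d p (η := 1 / 2) (by norm_num) (by norm_num)
  obtain ⟨s₀, hs₀⟩ := exists_pow_lt_of_lt_one (show 0 < 2 * ε by positivity)
    (show (1 / 2 : ℝ) < 1 by norm_num)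
  obtain ⟨n₁, hn₁⟩ := eventually_rpow (a := 1 - 1 / 2) (by norm_num) s₀
  refine ⟨max n₀ n₁, fun n N hn hnN hN C out hC hx => ?_⟩
  obtain ⟨L, s, h1, h2, h3, h4⟩ := h n N ((le_max_left _ _).trans hn) hN
  have h5 := corr_bound h1 hnN h2 h3 C (List.countP_le_length.trans hC) out
  have h6 : s₀ ≤ s := by exact_mod_cast (hn₁ n ((le_max_right _ _).trans hn)).trans h4
  have h7 : (1 / 2 : ℝ) ^ s ≤ (1 / 2) ^ s₀ :=
    pow_le_pow_of_le_one (by norm_num) (by norm_num) h6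
  have h8 : 2 * ε ≤ parityCorrelation n C out := by
    rw [parityCorrelation, le_div_iff₀ (by positivity)]
    calc 2 * ε * 2 ^ n = ∑ _x : Fin n → Bool, 2 * ε := by simp [mul_comm]
      _ ≤ _ := Finset.sum_le_sum fun x _ => by
          have := prob_sum C out x (parity x)
          have := hx x
          linarith
  linarith [le_abs_self (parityCorrelation n C out)]

theorem no_fanout (d : ℕ) (p : Polynomial ℕ) :
    ∃ n₀ : ℕ, ∀ n N : ℕ, n₀ ≤ n → n + 1 ≤ N → N ≤ p.eval n →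
      ∀ C : List (Layer N), C.length ≤ d →
        ¬ ∀ (y : Fin (n + 1) → Bool) (z : Fin N → Bool), circuitMat C z (inputState N y) =
          if z = inputState N (fanout y) then 1 else 0 := by
  obtain ⟨n₀, h⟩ := params d p (η := 1 / 2) (by norm_num) (by norm_num)
  refine ⟨n₀, fun n N hn hnN hN C hC hx => ?_⟩
  obtain ⟨L, s, h1, h2, h3, -⟩ := h n N hn hN
  exact fanout_false h1 hnN (le_trans (Nat.mul_le_mul_right _ (by omega)) h3) C
    (List.countP_le_length.trans hC) hx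

end Vale.Agent.P368
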