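import Vale.Agent.P368.Tens

/-! Low degree functions on the cube and an approximation of the indicator of weight zero. -/

namespace Vale.Agent.P368

open Finset

variable {N : ℕ}

/-- `f` behaves like a polynomial of degree at most `n` with coefficient mass at most `K` -/
def Low (n : ℕ) (K : ℝ) (f : Om N → ℂ) : Prop :=
  ∀ (Φ : Seminorm ℂ (Om N → ℂ)) (D : ℕ) (ε : ℝ), 0 ≤ ε →
    (∀ T : Finset (Fin N), T.card ≤ D → Φ (mon T) ≤ ε) →
    ∀ T : Finset (Fin N), T.card + n ≤ D → Φ (mon T * f) ≤ K * ε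

theorem Low.const (c : ℝ) : Low 0 |c| (fun _ : Om N => (c : ℂ)) := by
  intro Φ D ε hε h T hT
  have : mon T * (fun _ : Om N => (c : ℂ)) = (c : ℂ) • mon T := by
    funext z
    simp [mul_comm]
  rw [this, map_smul_eq_mul, Complex.norm_real, Real.norm_eq_abs]
  exact mul_le_mul_of_nonneg_left (h T (by simpa using hT)) (abs_nonneg _)

theorem Low.mono {n n' : ℕ} {K K' : ℝ} {f : Om N → ℂ} (h : Low n K f) (hn : n ≤ n')
    (hK : K ≤ K') : Low n' K' f := by
  intro Φ D ε hε h1 T hT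
  exact (h Φ D ε hε h1 T (by omega)).trans (mul_le_mul_of_nonneg_right hK hε)

theorem Low.sub {n : ℕ} {K K' : ℝ} {f g : Om N → ℂ} (h : Low n K f) (h' : Low n K' g) :
    Low n (K + K') (f - g) := by
  intro Φ D ε hε h1 T hT
  rw [mul_sub, add_mul]
  exact (map_sub_le_add Φ _ _).trans (add_le_add (h Φ D ε hε h1 T hT) (h' Φ D ε hε h1 T hT))

theorem Low.mul {n n' : ℕ} {K K' : ℝ} {f g : Om N → ℂ} (h : Low n K f) (h' : Low n' K' g)
    (hK : 0 ≤ K') : Low (n + n') (K * K') (f * g) := by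
  intro Φ D ε hε h1 T hT
  have := h (Φ.comp (LinearMap.mulRight ℂ g)) (D - n') (K' * ε) (mul_nonneg hK hε) (by
    intro T' hT'
    exact h' Φ D ε hε h1 T' (by omega)) T (by omega)
  rw [← mul_assoc, mul_assoc K]
  exact this

theorem mon_mul_wt (B T : Finset (Fin N)) :
    mon T * (fun z : Om N => (wt B z : ℂ)) = ∑ i ∈ B, mon (insert i T) := by
  funext z
  rw [Finset.sum_apply, Pi.mul_apply, wt, card_filter]
  push_cast
  rw [mul_sum]
  refine sum_congr rfl fun i _ => ?_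
  simp only [mon, mem_insert, forall_eq_or_imp]
  split_ifs <;> simp_all

theorem seminorm_sum_le {ι : Type*} (Φ : Seminorm ℂ (Om N → ℂ)) (s : Finset ι)
    (f : ι → Om N → ℂ) : Φ (∑ i ∈ s, f i) ≤ ∑ i ∈ s, Φ (f i) := by
  classical
  induction s using Finset.induction_on with
  | empty => simp
  | insert a s ha ih =>
    rw [sum_insert ha, sum_insert ha]
    exact (map_add_le_add Φ _ _).trans (by linarith)

theorem low_wt (B : Finset (Fin N)) : Low 1 N (fun z : Om N => (wt B z : ℂ)) := by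
  intro Φ D ε hε h T hT
  rw [mon_mul_wt]
  calc _ ≤ ∑ i ∈ B, Φ (mon (insert i T)) := seminorm_sum_le _ _ _
    _ ≤ ∑ _i ∈ B, ε := sum_le_sum fun i _ => h _ ((card_insert_le _ _).trans hT)
    _ = B.card * ε := by simp
    _ ≤ N * ε := by
      apply mul_le_mul_of_nonneg_right _ hε
      have : B.card ≤ N := by simpa using card_le_univ B
      exact_mod_cast this

theorem mon_empty : mon (∅ : Finset (Fin N)) = 1 := by
  funext z
  simp [mon]

theorem Low.bound {n : ℕ} {K : ℝ} {f : Om N → ℂ} (h : Low n K f) (z : Om N) : ‖f z‖ ≤ K := by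
  have := h ((normSeminorm ℂ ℂ).comp (LinearMap.proj z)) n 1 zero_le_one (by
    intro T _
    simp only [Seminorm.comp_apply, LinearMap.proj_apply, coe_normSeminorm, mon]
    split_ifs <;> simp) ∅ (by simp)
  simpa [mon_empty] using this

theorem low_affine (B : Finset (Fin N)) (a b : ℝ) :
    Low 1 (|a| + |b| * N) (fun z : Om N => ((a - b * wt B z : ℝ) : ℂ)) := by
  have h1 := ((Low.const (N := N) a).mono (Nat.zero_le 1) le_rfl).sub
    ((Low.const b).mul (low_wt B) (Nat.cast_nonneg _))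
  convert h1 using 1
  funext z
  simp

/-- Chebyshev recursion -/
def cheb : ℕ → ℝ → ℝ
  | 0, _ => 1
  | 1, y => y
  | n + 2, y => 2 * y * cheb (n + 1) y - cheb n y

theorem cheb_cos (θ : ℝ) : ∀ n : ℕ, cheb n (Real.cos θ) = Real.cos (n * θ)
  | 0 => by simp [cheb]
  | 1 => by simp [cheb]
  | n + 2 => by
    rw [cheb, cheb_cos θ (n + 1), cheb_cos θ n]
    have h1 : ((n + 2 : ℕ) : ℝ) * θ = ((n + 1 : ℕ) : ℝ) * θ + θ := by push_cast; ring
    have h2 : (n : ℝ) * θ = ((n + 1 : ℕ) : ℝ) * θ - θ := by push_cast; ring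
    rw [h1, h2, Real.cos_add, Real.cos_sub]
    ring

theorem abs_cheb_le {y : ℝ} (h1 : -1 ≤ y) (h2 : y ≤ 1) (n : ℕ) : |cheb n y| ≤ 1 := by
  rw [← Real.cos_arccos h1 h2, cheb_cos]
  exact Real.abs_cos_le_one _

theorem cheb_eval {l : ℝ} (hl : l ≠ 0) :
    ∀ n : ℕ, cheb n ((l + l⁻¹) / 2) = (l ^ n + l⁻¹ ^ n) / 2
  | 0 => by simp [cheb]
  | 1 => by simp [cheb]
  | n + 2 => by
    rw [cheb, cheb_eval hl (n + 1), cheb_eval hl n]
    have : l * l⁻¹ = 1 := mul_inv_cancel₀ hl
    linear_combination (l ^ n + l⁻¹ ^ n) / 2 * this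

theorem low_cheb {y : Om N → ℝ} {κ : ℝ} (hκ : 0 ≤ κ) (hy : Low 1 κ (fun z => (y z : ℂ))) :
    ∀ n : ℕ, Low n ((2 * κ + 1) ^ n) (fun z => (cheb n (y z) : ℂ))
  | 0 => by simpa [cheb] using Low.const (N := N) 1
  | 1 => by simpa [cheb] using hy.mono le_rfl (by linarith)
  | n + 2 => by
    have h1 := low_cheb hκ hy (n + 1)
    have h0 := low_cheb hκ hy n
    have h2 := (((Low.const (N := N) 2).mul hy hκ).mul h1 (by positivity)).mono
      (n' := n + 2) (by omega) le_rfl
    have h3 := h2.sub (h0.mono (by omega) le_rfl)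
    have h4 : (2 * κ + 1) ^ n ≤ (2 * κ + 1) ^ (n + 1) :=
      pow_le_pow_right₀ (by linarith) (by omega)
    refine Low.mono ?_ le_rfl (K := |(2 : ℝ)| * κ * (2 * κ + 1) ^ (n + 1) + (2 * κ + 1) ^ n) ?_
    · convert h3 using 1
      funext z
      simp [cheb]
    · rw [abs_two, pow_succ _ (n + 1)]
      linarith

/-- the polynomial vanishing at `1, …, r` -/
noncomputable def zer (r : ℕ) (j : ℕ) : ℝ := ∏ i ∈ range r, (1 - (1 / (i + 1 : ℝ)) * j)

theorem low_zer (B : Finset (Fin N)) :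
    ∀ r : ℕ, Low r ((N + 1) ^ r) (fun z : Om N => (zer r (wt B z) : ℂ))
  | 0 => by simpa [zer] using Low.const (N := N) 1
  | r + 1 => by
    have h1 := low_zer B r
    have h2 := (low_affine B 1 (1 / (r + 1 : ℝ))).mono le_rfl (K' := N + 1) (by
      rw [abs_one, abs_of_nonneg (by positivity), add_comm]
      have : 1 / (r + 1 : ℝ) ≤ 1 := by
        rw [div_le_one (by positivity)]
        linarith [Nat.cast_nonneg (α := ℝ) r]
      nlinarith [Nat.cast_nonneg (α := ℝ) N])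
    have h3 := h1.mul h2 (by positivity)
    rw [pow_succ]
    convert h3 using 1
    funext z
    simp [zer, prod_range_succ]

theorem zer_zero (r : ℕ) : zer r 0 = 1 := by simp [zer]

theorem zer_eq_zero {r j : ℕ} (h1 : 1 ≤ j) (h2 : j ≤ r) : zer r j = 0 := by
  obtain ⟨i, rfl⟩ : ∃ i, j = i + 1 := ⟨j - 1, by omega⟩
  apply prod_eq_zero (i := i) (mem_range.2 (by omega))
  push_cast
  field_simp
  ring

theorem exists_approx (B : Finset (Fin N)) {r q : ℕ} (e : ℕ) (hr : 1 ≤ r) (hq : 1 ≤ q) :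
    ∃ f : Om N → ℂ, Low (r + q * e) ((2 * N + 5) ^ (r + q * e)) f ∧
      (∀ z, wt B z = 0 → f z = 1) ∧
      ∀ z, 1 ≤ wt B z → wt B z ≤ r * q ^ 2 → ‖f z‖ ≤ (N + 1) ^ r * (2 / 2 ^ e) := by
  have hq' : (1 : ℝ) ≤ q := by exact_mod_cast hq
  have hr' : (1 : ℝ) ≤ r := by exact_mod_cast hr
  have hN : (0 : ℝ) ≤ N := Nat.cast_nonneg N
  set l : ℝ := 1 + 1 / q with hl
  have hq1 : 1 / (q : ℝ) ≤ 1 := by rw [div_le_one (by linarith)]; exact hq'
  have hq0 : 0 < 1 / (q : ℝ) := by positivity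
  have hl1 : 1 ≤ l := by linarith
  have hl0 : 0 < l := by linarith
  have hl2 : l⁻¹ ≤ 1 := inv_le_one_of_one_le₀ hl1
  set a : ℝ := (l + l⁻¹) / 2 with ha
  have ha1 : (a - 1) * q ^ 2 = l⁻¹ / 2 := by
    rw [ha, hl]
    field_simp
    ring
  have hli : 0 < l⁻¹ := inv_pos.2 hl0
  have ha2 : 0 ≤ a - 1 := by
    by_contra h
    have : (a - 1) * q ^ 2 < 0 := mul_neg_of_neg_of_pos (not_le.1 h) (by positivity)
    linarith
  have ha3 : a ≤ 2 := by linarith
  set b : ℝ := (a - 1) / r with hb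
  have hb0 : 0 ≤ b := by positivity
  have hbr : b * r = a - 1 := by rw [hb]; field_simp
  have hb1 : b ≤ 1 := by nlinarith
  set c : ℝ := cheb (q * e) a with hc
  have hc' : c = (l ^ (q * e) + l⁻¹ ^ (q * e)) / 2 := cheb_eval hl0.ne' _
  have hpow : (2 : ℝ) ^ e ≤ l ^ (q * e) := by
    rw [pow_mul]
    apply pow_le_pow_left₀ (by norm_num)
    have := one_add_mul_le_pow (a := 1 / (q : ℝ)) (by linarith) q
    have h2 : (q : ℝ) * (1 / q) = 1 := by field_simp
    rw [h2] at this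
    linarith
  have hc1 : 1 ≤ c := by
    have h1 : l ^ (q * e) * l⁻¹ ^ (q * e) = 1 := by
      rw [← mul_pow, mul_inv_cancel₀ hl0.ne', one_pow]
    have h2 : 0 < l ^ (q * e) := by positivity
    rw [hc']
    nlinarith [sq_nonneg (l ^ (q * e) - 1)]
  have hc2 : 2 ^ e / 2 ≤ c := by
    have : 0 < l⁻¹ ^ (q * e) := by positivity
    rw [hc']
    linarith
  have L1 := low_zer B r
  have L2 := low_cheb (N := N) (κ := |a| + |b| * N) (by positivity) (low_affine B a b) (q * e)
  have L3 := Low.const (N := N) c⁻¹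
  have L4 := (L1.mul L2 (by positivity)).mul L3 (abs_nonneg _)
  refine ⟨_, L4.mono (by omega) ?_, ?_, ?_⟩
  · have e1 : |c⁻¹| ≤ 1 := by
      rw [abs_of_nonneg (by positivity)]
      exact inv_le_one_of_one_le₀ hc1
    have e2 : 2 * (|a| + |b| * N) + 1 ≤ 2 * N + 5 := by
      rw [abs_of_nonneg (by linarith), abs_of_nonneg hb0]
      nlinarith
    calc _ ≤ ((2 * N + 5 : ℝ) ^ r * (2 * N + 5) ^ (q * e)) * 1 := by
          gcongr
          · linarith
          · norm_num
      _ = _ := by rw [mul_one, pow_add]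
  · intro z hz
    simp only [Pi.mul_apply, hz, zer_zero, Nat.cast_zero, mul_zero, sub_zero]
    rw [← hc, ← Complex.ofReal_mul, ← Complex.ofReal_mul, one_mul,
      mul_inv_cancel₀ (by linarith)]
    simp
  · intro z h1 h2
    simp only [Pi.mul_apply]
    by_cases h3 : wt B z ≤ r
    · rw [zer_eq_zero h1 h3]
      simp only [Complex.ofReal_zero, zero_mul, norm_zero]
      positivity
    · have h4 : (r : ℝ) ≤ wt B z := by exact_mod_cast (not_le.1 h3).le
      have h5 : (wt B z : ℝ) ≤ r * q ^ 2 := by exact_mod_cast h2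
      have h6 : |cheb (q * e) (a - b * wt B z)| ≤ 1 := by
        apply abs_cheb_le
        · have : b * wt B z ≤ b * (r * q ^ 2) := mul_le_mul_of_nonneg_left h5 hb0
          rw [← mul_assoc, hbr, ha1] at this
          linarith
        · have : b * r ≤ b * wt B z := mul_le_mul_of_nonneg_left h4 hb0
          linarith
      have h7 := L1.bound z
      rw [norm_mul, norm_mul, Complex.norm_real (cheb _ _), Complex.norm_real c⁻¹,
        Real.norm_eq_abs, Real.norm_eq_abs, abs_of_nonneg (a := c⁻¹) (by positivity)]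
      have h8 : c⁻¹ ≤ 2 / 2 ^ e := by
        rw [← inv_div]
        exact inv_anti₀ (by positivity) hc2
      calc _ ≤ ((N + 1 : ℝ) ^ r * 1) * (2 / 2 ^ e) := by gcongr
        _ = _ := by rw [mul_one]

end Vale.Agent.P368
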