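import Vale.Agent.P368.Defs
import Vale.Agent.P368.Boot

/-! Circuits belong to the class `UC`. -/

namespace Vale.Agent.P368

open Matrix Finset
open scoped Matrix.Norms.L2Operator

variable {N : ℕ}

/-- the number one over square root of two -/
noncomputable def cc : ℂ := ((√2)⁻¹ : ℝ)

theorem cc_mul : cc * cc = 1 / 2 := by
  rw [cc, ← Complex.ofReal_mul, ← mul_inv, Real.mul_self_sqrt (by norm_num)]
  norm_num

@[simp] theorem cc_conj : (starRingEnd ℂ) cc = cc := by simp [cc]

/-- bit flip -/
def xg : Q1 := fun a b => if a = b then 0 else 1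

/-- a unitary sending the zero state to the minus state -/
noncomputable def vm : Q1 := fun a b => if a = true ∧ b = false then -cc else cc

/-- projector on the minus state -/
noncomputable def pm : Q1 := fun a b => if a = b then 1 / 2 else -(1 / 2)

theorem xg_unitary : xg ∈ unitary Q1 := by
  rw [Unitary.mem_iff]
  constructor <;> ext a b <;> cases a <;> cases b <;> simp [xg, Matrix.mul_apply]

theorem vm_unitary : vm ∈ unitary Q1 := by
  have := cc_mul
  rw [Unitary.mem_iff]
  constructor <;> ext a b <;> cases a <;> cases b <;> simp [vm, Matrix.mul_apply, this] <;>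
    norm_num

theorem xg_p0 : xg * p0 * star xg = p1 := by
  ext a b
  cases a <;> cases b <;> simp [xg, p0, p1, Matrix.mul_apply]

theorem vm_p0 : vm * p0 * star vm = pm := by
  have := cc_mul
  ext a b
  cases a <;> cases b <;> simp [vm, p0, pm, Matrix.mul_apply, this]

theorem one_mat (q : Fin N) (u : Matrix.unitaryGroup Bool ℂ) :
    (Gate.one q u).mat = tens (fun i => if i = q then (u : Q1) else 1) := by
  ext z' z
  rw [tens_apply, ← mul_prod_erase univ _ (mem_univ q), if_pos rfl, Gate.mat]
  dsimp only
  split_ifs with h
  · rw [prod_eq_one, mul_one]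
    intro i hi
    rw [if_neg (ne_of_mem_erase hi), h i (ne_of_mem_erase hi), Matrix.one_apply_eq]
  · push Not at h
    obtain ⟨i, hi, hne⟩ := h
    rw [prod_eq_zero (mem_erase.2 ⟨hi, mem_univ i⟩), mul_zero]
    rw [if_neg hi, Matrix.one_apply_ne hne]

theorem toffoli_mat (C : Finset (Fin N)) (b : Fin N) (hC : C.Nonempty) (hb : b ∉ C) :
    (Gate.toffoli C b hC hb).mat =
      1 - (2 : ℂ) • tens (fun i => if i ∈ C then p1 else if i = b then pm else 1) := by
  ext z' z
  rw [Matrix.sub_apply, Matrix.smul_apply, tens_apply, Gate.mat]
  dsimp only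
  by_cases h1 : ∀ i ∈ C, z i = true
  · by_cases h2 : ∀ i, i ≠ b → z' i = z i
    · rw [← mul_prod_erase univ _ (mem_univ b), if_neg hb, if_pos rfl, prod_eq_one, mul_one]
      · by_cases h3 : z' b = z b
        · have : z' = z := by
            funext i
            by_cases hi : i = b
            · rw [hi, h3]
            · exact h2 i hi
          subst this
          rw [if_neg, Matrix.one_apply_eq]
          · simp [pm]
          · intro h
            have := congrFun h b
            simp [decide_eq_true h1] at this
        · rw [if_pos, Matrix.one_apply_ne (fun h => h3 (by rw [h]))]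
          · simp [pm, h3]
          · funext i
            by_cases hi : i = b
            · subst hi
              simp only [Function.update_self, decide_eq_true h1]
              revert h3
              cases z' i <;> cases z i <;> simp
            · rw [Function.update_of_ne hi, h2 i hi]
      · intro i hi
        have hib := ne_of_mem_erase hi
        rw [h2 i hib]
        split_ifs with h4
        · simp [p1, h1 i h4]
        · simp
    · push Not at h2
      obtain ⟨i, hi, hne⟩ := h2
      rw [if_neg, Matrix.one_apply_ne (fun h => hne (by rw [h])), prod_eq_zero (mem_univ i)]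
      · simp
      · split_ifs
        · exact diagonal_apply_ne _ hne
        · exact Matrix.one_apply_ne hne
      · intro h
        apply hne
        rw [h, Function.update_of_ne hi]
  · have h2 : decide (∀ i ∈ C, z i = true) = false := decide_eq_false h1
    push Not at h1
    obtain ⟨i, hi, hne⟩ := h1
    rw [h2, Bool.xor_false, Function.update_eq_self, prod_eq_zero (mem_univ i), Matrix.one_apply]
    · simp
    · rw [if_pos hi, p1, diagonal_apply]
      split_ifs with h3 h4
      · exact absurd (h3 ▸ h4) hne
      · rfl
      · rfl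

theorem toffoli_nf (C : Finset (Fin N)) (b : Fin N) (hC : C.Nonempty) (hb : b ∉ C) :
    ∃ v : Fin N → Q1, (∀ i, v i ∈ unitary Q1) ∧ (∀ i, i ∉ insert b C → v i = 1) ∧
      (Gate.toffoli C b hC hb).mat = tens v * Rf (insert b C) * star (tens v) := by
  have hv : ∀ i : Fin N, (if i ∈ C then xg else if i = b then vm else 1) ∈ unitary Q1 := by
    intro i
    split_ifs
    · exact xg_unitary
    · exact vm_unitary
    · exact one_mem _
  refine ⟨fun i => if i ∈ C then xg else if i = b then vm else 1, hv, ?_, ?_⟩
  · intro i hi
    rw [mem_insert, not_or] at hi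
    simp [hi.1, hi.2]
  · rw [toffoli_mat, Rf, mul_sub, sub_mul, mul_one, (Unitary.mem_iff.1 (tens_unitary hv)).2,
      mul_smul_comm, smul_mul_assoc, D0_eq_tens, tens_star, tens_mul, tens_mul]
    congr 3
    funext i
    by_cases h1 : i ∈ C
    · simp [h1, xg_p0]
    · by_cases h2 : i = b
      · subst h2
        simp [h1, vm_p0]
      · simp [h1, h2]

theorem loc_tens {S : Finset (Fin N)} {u : Fin N → Q1} (hu : ∀ i, u i ∈ unitary Q1)
    (h : ∀ i, i ∉ S → u i = 1) : Loc S (tens u) :=
  ⟨norm_unitary_le (tens_unitary hu), u, rfl, h⟩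

theorem Loc.comm_Rf {S g : Finset (Fin N)} {M : Op N} (h : Loc S M) (hd : Disjoint g S) :
    Rf g * M = M * Rf g := by
  simp only [Rf, sub_mul, mul_sub, one_mul, mul_one, smul_mul_assoc, mul_smul_comm, h.comm_D0 hd]

theorem Loc.comm_Lay {S : Finset (Fin N)} {M : Op N} (h : Loc S M) (gs : List (Finset (Fin N)))
    (hd : ∀ g ∈ gs, Disjoint g S) : Lay gs * M = M * Lay gs := by
  induction gs with
  | nil => simp [Lay_nil]
  | cons g gs ih =>
    rw [Lay_cons, mul_assoc, ih (fun g' hg' => hd g' (List.mem_cons_of_mem _ hg')), ← mul_assoc,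
      h.comm_Rf (hd g List.mem_cons_self), mul_assoc]

theorem layer_nf (l : List (Gate N))
    (hl : l.Pairwise (fun g h => Disjoint g.support h.support)) :
    ∃ u u' : Fin N → Q1, (∀ i, u i ∈ unitary Q1) ∧ (∀ i, u' i ∈ unitary Q1) ∧
      (∀ i, (∀ g ∈ l, i ∉ g.support) → u i = 1) ∧
      ∃ gs : List (Finset (Fin N)), gs.Pairwise Disjoint ∧ (∀ G ∈ gs, ∃ g ∈ l, G = g.support) ∧
        (l.any Gate.isMulti = false → gs = []) ∧
        (l.map Gate.mat).prod = tens u * Lay gs * tens u' := by
  induction l with
  | nil =>
    exact ⟨fun _ => 1, fun _ => 1, fun _ => one_mem _, fun _ => one_mem _, fun _ _ => rfl, [],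
      List.Pairwise.nil, by simp, fun _ => rfl, by simp [tens_one, Lay_nil]⟩
  | cons g l ih =>
    rw [List.pairwise_cons] at hl
    obtain ⟨u, u', hu, hu', h1, gs, h2, h3, h4, h5⟩ := ih hl.2
    cases g with
    | one q w =>
      refine ⟨fun i => (if i = q then (w : Q1) else 1) * u i, u', fun i => mul_mem ?_ (hu i), hu',
        ?_, gs, h2, ?_, ?_, ?_⟩
      · split_ifs
        · exact w.2
        · exact one_mem _
      · intro i hi
        have h6 : i ≠ q := by simpa [Gate.support] using hi _ List.mem_cons_self
        simp [h6, h1 i (fun g hg => hi g (List.mem_cons_of_mem _ hg))]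
      · intro G hG
        obtain ⟨g, hg, rfl⟩ := h3 G hG
        exact ⟨g, List.mem_cons_of_mem _ hg, rfl⟩
      · intro h
        apply h4
        simpa [Gate.isMulti] using h
      · rw [List.map_cons, List.prod_cons, h5, one_mat, ← tens_mul]
        simp only [mul_assoc]
    | toffoli C b hC hb =>
      obtain ⟨v, hv, hv1, hv2⟩ := toffoli_nf C b hC hb
      have hd : ∀ G ∈ gs, Disjoint (insert b C) G := by
        intro G hG
        obtain ⟨g, hg, rfl⟩ := h3 G hG
        exact hl.1 g hg
      have hu1 : ∀ i, i ∈ insert b C → u i = 1 := fun i hi =>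
        h1 i fun g hg => disjoint_left.1 (hl.1 g hg) hi
      refine ⟨fun i => v i * u i, fun i => star (v i) * u' i, fun i => mul_mem (hv i) (hu i),
        fun i => mul_mem (Unitary.star_mem (hv i)) (hu' i), ?_, insert b C :: gs,
        List.pairwise_cons.2 ⟨hd, h2⟩, ?_, ?_, ?_⟩
      · intro i hi
        simp [hv1 i (hi _ List.mem_cons_self),
          h1 i (fun g hg => hi g (List.mem_cons_of_mem _ hg))]
      · intro G hG
        rcases List.mem_cons.1 hG with rfl | hG
        · exact ⟨_, List.mem_cons_self, rfl⟩
        · obtain ⟨g, hg, rfl⟩ := h3 G hG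
          exact ⟨g, List.mem_cons_of_mem _ hg, rfl⟩
      · intro h
        simp [Gate.isMulti] at h
      · have l1 : Loc (insert b C) (tens fun i => star (v i)) :=
          loc_tens (fun i => Unitary.star_mem (hv i)) (fun i hi => by rw [hv1 i hi, star_one])
        have l2 : Loc (insert b C)ᶜ (tens u) :=
          loc_tens hu (fun i hi => hu1 i (by rwa [mem_compl, not_not] at hi))
        have c1 : (tens fun i => star (v i)) * tens u = tens u * (tens fun i => star (v i)) := by
          apply tens_comm
          intro i
          by_cases hi : i ∈ insert b C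
          · exact Or.inr (hu1 i hi)
          · exact Or.inl (by rw [hv1 i hi, star_one])
        have c2 := l1.comm_Lay gs (fun G hG => (hd G hG).symm)
        have c3 := l2.comm_Rf (g := insert b C) disjoint_compl_right
        rw [List.map_cons, List.prod_cons, h5, hv2, tens_star, ← tens_mul, ← tens_mul, Lay_cons]
        calc _ = tens v * (Rf (insert b C) * (((tens fun i => star (v i)) * tens u) * Lay gs)) *
              tens u' := by simp only [mul_assoc]
          _ = tens v * ((Rf (insert b C) * tens u) * ((tens fun i => star (v i)) * Lay gs)) *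
              tens u' := by rw [c1]; simp only [mul_assoc]
          _ = _ := by rw [c3, ← c2]; simp only [mul_assoc]

theorem circuit_uc (C : List (Layer N)) : UC (entanglingDepth C) (circuitMat C) := by
  induction C with
  | nil => exact uc_one
  | cons L C ih =>
    obtain ⟨u, u', hu, hu', -, gs, h2, -, h4, h5⟩ := layer_nf L.gates L.disjoint
    rw [circuitMat, Layer.mat, h5, ← mul_assoc, ← mul_assoc, entanglingDepth, List.countP_cons]
    split_ifs with h
    · exact ((ih.tens_right hu).lay_right h2).tens_right hu'
    · rw [h4 (by simpa using h), Lay_nil, mul_one]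
      exact (ih.tens_right hu).tens_right hu'

end Vale.Agent.P368
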