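import Vale.Agent.P368.Model

/-! From the weight growth estimate to parity and fanout. -/

namespace Vale.Agent.P368

open Matrix Finset
open scoped Matrix.Norms.L2Operator

variable {N n : ℕ}

/-- sign of a bit -/
def sgn (b : Bool) : ℂ := if b = true then -1 else 1

/-- phase flip -/
def zg : Q1 := diagonal sgn

/-- Hadamard gate followed by an optional phase flip -/
noncomputable def hz (s : Bool) : Q1 := fun a b =>
  (if s = true then sgn a else 1) * (if a = true ∧ b = true then -cc else cc)

theorem zg_unitary : zg ∈ unitary Q1 := by
  rw [Unitary.mem_iff]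
  constructor <;> ext a b <;> cases a <;> cases b <;> simp [zg, sgn, Matrix.mul_apply]

theorem hz_unitary (s : Bool) : hz s ∈ unitary Q1 := by
  have := cc_mul
  rw [Unitary.mem_iff]
  constructor <;> ext a b <;> cases s <;> cases a <;> cases b <;>
    simp [hz, sgn, Matrix.mul_apply, this] <;> norm_num

theorem hz_sum : ∑ s, (1 / 2 : ℂ) • (hz s * single false true 1 * star (hz s)) =
    diagonal (fun b => 1 / 2 * sgn b) := by
  have := cc_mul
  ext a b
  cases a <;> cases b <;> simp [hz, sgn, Matrix.mul_apply, Matrix.single_apply, this] <;> norm_num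

theorem anc_sum : ∑ _s : Bool, (1 / 2 : ℂ) • ((1 : Q1) * single false false 1 * star (1 : Q1)) =
    diagonal (fun b => if b = false then 1 else 0) := by
  ext a b
  cases a <;> cases b <;> simp

theorem tens_smul (c : ℂ) (X : Fin N → Q1) : tens (fun i => c • X i) = c ^ N • tens X := by
  ext z w
  simp [tens_apply, prod_mul_distrib]

theorem tens_single (a b : Om N) :
    tens (fun i => single (a i) (b i) (1 : ℂ)) = single a b 1 := by
  ext z w
  rw [tens_apply, Matrix.single_apply]
  split_ifs with h
  · obtain ⟨rfl, rfl⟩ := h
    simp
  · rw [not_and_or] at h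
    rcases h with h | h
    · obtain ⟨i, hi⟩ := Function.ne_iff.1 h
      exact prod_eq_zero (mem_univ i) (by simp [hi])
    · obtain ⟨i, hi⟩ := Function.ne_iff.1 h
      exact prod_eq_zero (mem_univ i) (by simp [hi])

/-- the input qubits -/
def inp (N n : ℕ) : Finset (Fin N) := univ.filter (fun i => i.val < n)

theorem card_inp (h : n ≤ N) : (inp N n).card = n := by
  rw [inp, Fin.card_filter_val_lt]
  omega

theorem entry_bound {d L s : ℕ} (hH : HH N d L) (hn : n ≤ N) (hs : 1 ≤ s) (hk : (1 + s) * L ≤ n)
    {U : Op N} (hU : UC d U) {X : Op N} {q : Fin N} (hX : Loc {q} X) (o : Om N)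
    (ho : ∀ i : Fin N, i.val < n → o i = true) :
    ‖(star U * X * U) o (fun _ => false)‖ ≤ (1 / 2) ^ s := by
  have h1 := hH U hU (inp N n) {q} X hX s n hs (by simpa using hk)
  refine le_trans (le_of_eq ?_) ((entry_le _ o (fun _ => false)).trans h1)
  have e : Dge (inp N n) n * star U * X * (U * D0 (inp N n)) =
      Dge (inp N n) n * (star U * X * U) * D0 (inp N n) := by simp only [mul_assoc]
  have w1 : n ≤ wt (inp N n) o := by
    rw [wt, filter_true_of_mem, card_inp hn]
    intro i hi
    exact ho i (mem_filter.1 hi).2
  have w2 : wt (inp N n) (fun _ => false) = 0 := by simp [wt]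
  rw [e, Dge, D0, mul_diagonal, diagonal_mul, i0, if_pos w1, if_pos w2, one_mul, mul_one]

theorem sgn_parity (x : Fin n → Bool) : sgn (parity x) = ∏ j, sgn (x j) := by
  simp only [sgn, parity, decide_eq_true_eq]
  rw [prod_ite, prod_const, prod_const_one, mul_one]
  by_cases h : Odd (univ.filter (fun i => x i = true)).card
  · rw [if_pos h, Odd.neg_one_pow h]
  · rw [if_neg h, Even.neg_one_pow (Nat.not_odd_iff_even.1 h)]

theorem inputState_inj (h : n ≤ N) : Function.Injective (inputState (n := n) N) := by
  intro x y hxy
  funext j
  have := congrFun hxy ⟨j.val, lt_of_lt_of_le j.2 h⟩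
  simpa [inputState] using this

/-- the measured observable -/
def zout (out : Fin N) : Op N := tens (fun i => if i = out then zg else 1)

theorem zout_eq (out : Fin N) : zout out = diagonal (fun z : Om N => sgn (z out)) := by
  have h : (fun i : Fin N => if i = out then zg else (1 : Q1)) =
      fun i => diagonal (fun b => if i = out then sgn b else 1) := by
    funext i
    split_ifs <;> simp [zg]
  rw [zout, h, tens_diagonal]
  simp

theorem loc_zout (out : Fin N) : Loc {out} (zout out) := by
  apply loc_tens
  · intro i
    split_ifs
    · exact zg_unitary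
    · exact one_mem _
  · intro i hi
    rw [if_neg (by simpa using hi)]

theorem prob_diff (C : List (Layer N)) (out : Fin N) (x : Fin n → Bool) (b : Bool) :
    ((outProb C out x b - outProb C out x (!b) : ℝ) : ℂ) =
      sgn b * (star (circuitMat C) * zout out * circuitMat C) (inputState N x) (inputState N x) := by
  rw [zout_eq, Matrix.mul_apply]
  simp only [mul_diagonal, outProb, sum_filter, Matrix.star_apply]
  rw [← sum_sub_distrib, mul_sum]
  push_cast
  refine sum_congr rfl fun z _ => ?_
  have := Complex.conj_mul' (circuitMat C z (inputState N x))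
  cases b <;> cases h : z out <;> simp [sgn, this]

theorem prob_sum (C : List (Layer N)) (out : Fin N) (x : Fin n → Bool) (b : Bool) :
    outProb C out x b + outProb C out x (!b) = 1 := by
  have h1 := (Unitary.mem_iff.1 (circuit_uc C).unitary).1
  have h2 := congrFun (congrFun h1 (inputState N x)) (inputState N x)
  rw [Matrix.one_apply_eq, Matrix.mul_apply] at h2
  apply Complex.ofReal_injective
  simp only [outProb, sum_filter]
  rw [← sum_add_distrib]
  push_cast
  rw [← h2]
  refine sum_congr rfl fun z _ => ?_
  have := Complex.conj_mul' (circuitMat C z (inputState N x))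
  cases b <;> cases h : z out <;> simp [this]

theorem corr_eq_trace (hn : n ≤ N) (O : Op N) :
    (∑ x : Fin n → Bool, sgn (parity x) * O (inputState N x) (inputState N x)) / 2 ^ n =
      trace (O * diagonal (fun z : Om N => ∏ i : Fin N,
        (if i.val < n then 1 / 2 * sgn (z i) else if z i = false then 1 else 0))) := by
  rw [trace, sum_div]
  simp only [diag_apply, mul_diagonal]
  apply Fintype.sum_of_injective _ (inputState_inj hn)
  · intro z hz
    have : ∃ i : Fin N, ¬ i.val < n ∧ z i = true := by
      by_contra hh
      apply hz
      refine ⟨fun j => z (Fin.castLE hn j), ?_⟩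
      funext i
      rw [inputState]
      split_ifs with h
      · rfl
      · by_contra h2
        exact hh ⟨i, h, by simpa using h2⟩
    obtain ⟨i, h1, h2⟩ := this
    rw [prod_eq_zero (mem_univ i) (by simp [h1, h2]), mul_zero]
  · intro x
    have : ∏ j : Fin n, (1 / 2 * sgn (x j)) = ∏ i : Fin N, (if i.val < n then
        1 / 2 * sgn (inputState N x i) else if inputState N x i = false then 1 else 0) := by
      apply Fintype.prod_of_injective _ (Fin.castLE_injective hn)
      · intro i hi
        have h1 : ¬ i.val < n := fun h => hi ⟨⟨i.val, h⟩, rfl⟩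
        simp [inputState, h1]
      · intro j
        simp [inputState]
    rw [← this, prod_mul_distrib, ← sgn_parity]
    simp
    ring

theorem corr_bound {d L s : ℕ} (hH : HH N d L) (hn : n ≤ N) (hs : 1 ≤ s) (hk : (1 + s) * L ≤ n)
    (C : List (Layer N)) (hC : entanglingDepth C ≤ d) (out : Fin N) :
    |parityCorrelation n C out| ≤ (1 / 2) ^ s := by
  have hU := (circuit_uc C).mono hC
  set U := circuitMat C with hUdef
  set O := star U * zout out * U with hO
  set o : Om N := fun i => decide (i.val < n) with ho
  set w : Fin N → Bool → Q1 := fun i b => if i.val < n then hz b else 1 with hw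
  have hwu : ∀ i b, w i b ∈ unitary Q1 := by
    intro i b
    simp only [hw]
    split_ifs
    · exact hz_unitary b
    · exact one_mem _
  have e1 : ((parityCorrelation n C out : ℝ) : ℂ) =
      (∑ x : Fin n → Bool, sgn (parity x) * O (inputState N x) (inputState N x)) / 2 ^ n := by
    rw [parityCorrelation, Complex.ofReal_div, Complex.ofReal_sum]
    simp only [prob_diff]
    push_cast
    rfl
  have e2 : (diagonal (fun z : Om N => ∏ i : Fin N,
        (if i.val < n then 1 / 2 * sgn (z i) else if z i = false then 1 else 0)) : Op N) =
      ∑ t : Om N, (1 / 2 : ℂ) ^ N • (tens (fun i => w i (t i)) * single (fun _ => false) o 1 *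
        star (tens (fun i => w i (t i)))) := by
    rw [← tens_diagonal (fun i b => if i.val < n then 1 / 2 * sgn b else
      if b = false then 1 else 0)]
    simp only [← tens_single, tens_star, tens_mul, ← tens_smul]
    rw [tens_sum (fun i b => (1 / 2 : ℂ) • (w i b * single false (o i) 1 * star (w i b)))]
    congr 1
    funext i
    by_cases h : i.val < n
    · simp only [hw, ho, h, if_true, decide_true]
      exact hz_sum.symm
    · simp only [hw, ho, h, if_false, decide_false]
      exact anc_sum.symm
  rw [corr_eq_trace hn, e2, mul_sum, trace_sum] at e1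
  rw [← Real.norm_eq_abs, ← Complex.norm_real, e1]
  refine (norm_sum_le _ _).trans ?_
  have h3 : ∀ t ∈ (univ : Finset (Om N)), ‖trace (O * (1 / 2 : ℂ) ^ N •
      (tens (fun i => w i (t i)) * single (fun _ => false) o 1 *
        star (tens (fun i => w i (t i)))))‖ ≤ (1 / 2) ^ N * (1 / 2) ^ s := by
    intro t _
    rw [mul_smul_comm, trace_smul, norm_smul, norm_pow]
    have e3 : ‖(1 / 2 : ℂ)‖ = 1 / 2 := by simp
    rw [e3]
    apply mul_le_mul_of_nonneg_left _ (by positivity)
    set W := tens (fun i => w i (t i)) with hW
    have e4 : trace (O * (W * single (fun _ => false) o 1 * star W)) =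
        (star (U * W) * zout out * (U * W)) o (fun _ => false) := by
      rw [← mul_assoc, trace_mul_comm, ← mul_assoc, ← mul_assoc, trace_mul_single, hO, star_mul]
      simp [mul_assoc]
    rw [e4]
    exact entry_bound hH hn hs hk (hU.tens_right fun i => hwu i (t i)) (loc_zout out) o
      (fun i hi => by simp [ho, hi])
  refine (sum_le_sum h3).trans (le_of_eq ?_)
  rw [sum_const, card_univ, nsmul_eq_mul, ← mul_assoc]
  simp

theorem fanout_false {d L : ℕ} (hH : HH N d L) (hn : n + 1 ≤ N) (hk : 2 * L ≤ n)
    (C : List (Layer N)) (hC : entanglingDepth C ≤ d)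
    (h : ∀ (y : Fin (n + 1) → Bool) (z : Fin N → Bool), circuitMat C z (inputState N y) =
      if z = inputState N (fanout y) then 1 else 0) : False := by
  have hU := (circuit_uc C).mono hC
  set U := circuitMat C with hUdef
  set q : Fin N := ⟨n, hn⟩ with hq
  set y1 : Fin (n + 1) → Bool := fun i => decide (i = Fin.last n) with hy1
  set X : Op N := tens (fun i => if i = q then xg else 1) with hX
  have lX : Loc {q} X := by
    apply loc_tens
    · intro i
      split_ifs
      · exact xg_unitary
      · exact one_mem _
    · intro i hi
      rw [if_neg (by simpa using hi)]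
  have h1 := entry_bound (n := n) (s := 1) hH (by omega) le_rfl hk hU.star lX
    (inputState N (fanout y1)) (by
      intro i hi
      have h2 : i.val < n + 1 := by omega
      have h3 : (⟨i.val, h2⟩ : Fin (n + 1)) ≠ Fin.last n := by
        intro h4
        have := congrArg Fin.val h4
        simp at this
        omega
      simp [inputState, h2, fanout, hy1, h3])
  have z0 : inputState N (fun _ : Fin (n + 1) => false) = fun _ => false := by
    funext i
    simp [inputState]
  have z1 : fanout (fun _ : Fin (n + 1) => false) = fun _ => false := by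
    funext i
    simp [fanout]
  have hU1 : star U * U = 1 := (Unitary.mem_iff.1 hU.unitary).1
  have c0 : ∀ z, U z (fun _ => false) = if z = (fun _ => false) then 1 else 0 := by
    intro z
    have := h (fun _ => false) z
    rwa [z1, z0] at this
  have c1 : ∀ z, (star U) z (fun _ => false) = if z = (fun _ => false) then 1 else 0 := by
    intro z
    have := congrFun (congrFun hU1 z) (fun _ => false)
    rw [Matrix.mul_apply] at this
    simp only [c0, mul_ite, mul_one, mul_zero, sum_ite_eq', mem_univ, if_true] at this
    rw [this, Matrix.one_apply]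
  have c2 : ∀ z, X z (fun _ => false) = if z = inputState N y1 then 1 else 0 := by
    intro z
    have hin : ∀ i : Fin N, inputState N y1 i = decide (i = q) := by
      intro i
      rw [inputState]
      split_ifs with h2
      · simp [hy1, hq, Fin.ext_iff]
      · have : i ≠ q := by
          rintro rfl
          simp [hq] at h2
        simp [this]
    rw [hX, tens_apply]
    split_ifs with h2
    · apply prod_eq_one
      intro i _
      rw [h2, hin]
      by_cases h3 : i = q
      · rw [if_pos h3, decide_eq_true h3]
        simp [xg]
      · rw [if_neg h3, decide_eq_false h3, Matrix.one_apply_eq]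
    · obtain ⟨i, hi⟩ := Function.ne_iff.1 h2
      apply prod_eq_zero (mem_univ i)
      rw [hin] at hi
      split_ifs with h3
      · simp only [h3, decide_true] at hi
        simp [xg, h3, hi]
      · simp only [h3, decide_false] at hi
        exact Matrix.one_apply_ne hi
  have c3 : (star (star U) * X * star U) (inputState N (fanout y1)) (fun _ => false) = 1 := by
    rw [star_star, Matrix.mul_apply]
    simp only [c1, mul_ite, mul_one, mul_zero, sum_ite_eq', mem_univ, if_true]
    rw [Matrix.mul_apply]
    simp only [c2, mul_ite, mul_one, mul_zero, sum_ite_eq', mem_univ, if_true]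
    rw [h y1, if_pos rfl]
  rw [c3] at h1
  norm_num at h1

end Vale.Agent.P368
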