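import Mathlib

/-! Tensor products of one-qubit matrices, diagonal projectors, local contractions. -/

namespace Vale.Agent.P368

open Matrix Finset
open scoped Matrix.Norms.L2Operator

variable {N : ℕ}

/-- basis states -/
abbrev Om (N : ℕ) : Type := Fin N → Bool

/-- operators on `N` qubits -/
abbrev Op (N : ℕ) : Type := Matrix (Om N) (Om N) ℂ

/-- one-qubit operators -/
abbrev Q1 : Type := Matrix Bool Bool ℂ

/-- tensor product of one-qubit operators -/
def tens (X : Fin N → Q1) : Op N := fun z w => ∏ i, X i (z i) (w i)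

theorem tens_apply (X : Fin N → Q1) (z w : Om N) : tens X z w = ∏ i, X i (z i) (w i) := rfl

theorem tens_mul (X Y : Fin N → Q1) : tens X * tens Y = tens (fun i => X i * Y i) := by
  ext z w
  simp only [Matrix.mul_apply, tens_apply]
  rw [Fintype.prod_sum]
  exact sum_congr rfl fun v _ => (prod_mul_distrib).symm

theorem tens_star (X : Fin N → Q1) : star (tens X) = tens (fun i => star (X i)) := by
  ext z w
  simp [tens_apply, Matrix.star_apply]

theorem tens_diagonal (f : Fin N → Bool → ℂ) :
    tens (fun i => diagonal (f i)) = diagonal (fun z : Om N => ∏ i, f i (z i)) := by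
  ext z w
  rw [tens_apply]
  by_cases h : z = w
  · subst h
    simp
  · rw [diagonal_apply_ne _ h]
    obtain ⟨i, hi⟩ := Function.ne_iff.1 h
    exact prod_eq_zero (mem_univ i) (diagonal_apply_ne _ hi)

theorem tens_one : tens (fun _ : Fin N => (1 : Q1)) = 1 := by
  have := tens_diagonal (N := N) (fun _ _ => 1)
  simpa using this

theorem tens_sum (Y : Fin N → Bool → Q1) :
    ∑ s : Om N, tens (fun i => Y i (s i)) = tens (fun i => ∑ b, Y i b) := by
  ext z w
  simp only [Matrix.sum_apply, tens_apply]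
  rw [Fintype.prod_sum]

theorem tens_unitary {u : Fin N → Q1} (hu : ∀ i, u i ∈ unitary Q1) :
    tens u ∈ unitary (Op N) := by
  rw [Unitary.mem_iff, tens_star, tens_mul, tens_mul]
  constructor
  · rw [← tens_one]
    congr 1
    funext i
    exact (Unitary.mem_iff.1 (hu i)).1
  · rw [← tens_one]
    congr 1
    funext i
    exact (Unitary.mem_iff.1 (hu i)).2

theorem tens_comm {X Y : Fin N → Q1} (h : ∀ i, X i = 1 ∨ Y i = 1) :
    tens X * tens Y = tens Y * tens X := by
  rw [tens_mul, tens_mul]
  congr 1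
  funext i
  rcases h i with h | h <;> simp [h]

theorem norm_diagonal_le (f : Om N → ℂ) {c : ℝ} (hc : 0 ≤ c) (h : ∀ z, ‖f z‖ ≤ c) :
    ‖(diagonal f : Op N)‖ ≤ c := by
  rw [Matrix.l2_opNorm_diagonal]
  exact (pi_norm_le_iff_of_nonneg hc).2 h

theorem norm_unitary_le {U : Op N} (hU : U ∈ unitary (Op N)) : ‖U‖ ≤ 1 :=
  (CStarRing.norm_of_mem_unitary hU).le

theorem entry_le (M : Op N) (z w : Om N) : ‖M z w‖ ≤ ‖M‖ := by
  have h1 := Matrix.l2_opNorm_mulVec M (EuclideanSpace.single w 1)
  have h2 := PiLp.norm_apply_le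
    ((EuclideanSpace.equiv (Om N) ℂ).symm (M *ᵥ (EuclideanSpace.single w (1 : ℂ)).ofLp)) z
  simp only [PiLp.norm_single, norm_one, mul_one] at h1
  refine le_trans (le_of_eq ?_) (h2.trans h1)
  simp

/-- number of ones inside `A` -/
def wt (A : Finset (Fin N)) (z : Om N) : ℕ := (A.filter (fun i => z i = true)).card

/-- indicator of weight zero on `A` -/
def i0 (A : Finset (Fin N)) (z : Om N) : ℂ := if wt A z = 0 then 1 else 0

/-- indicator of all ones on `T` -/
def mon (T : Finset (Fin N)) (z : Om N) : ℂ := if ∀ i ∈ T, z i = true then 1 else 0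

/-- projector onto weight zero on `A` -/
def D0 (A : Finset (Fin N)) : Op N := diagonal (i0 A)

/-- projector onto weight at least `k` on `A` -/
def Dge (A : Finset (Fin N)) (k : ℕ) : Op N := diagonal (fun z => if k ≤ wt A z then 1 else 0)

theorem wt_eq_zero {A : Finset (Fin N)} {z : Om N} : wt A z = 0 ↔ ∀ i ∈ A, z i = false := by
  simp [wt, filter_eq_empty_iff]

theorem wt_le (A : Finset (Fin N)) (z : Om N) : wt A z ≤ N := by
  calc wt A z ≤ (univ : Finset (Fin N)).card := card_le_card (subset_univ _)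
    _ = N := by simp

theorem norm_D0_le (A : Finset (Fin N)) : ‖D0 A‖ ≤ 1 := by
  apply norm_diagonal_le _ zero_le_one
  intro z
  unfold i0
  split_ifs <;> simp

theorem norm_Dge_le (A : Finset (Fin N)) (k : ℕ) : ‖Dge A k‖ ≤ 1 := by
  apply norm_diagonal_le _ zero_le_one
  intro z
  split_ifs <;> simp

theorem D0_mul (A B : Finset (Fin N)) : D0 A * D0 B = D0 (A ∪ B) := by
  rw [D0, D0, D0, diagonal_mul_diagonal]
  congr 1
  funext z
  simp only [i0, wt_eq_zero, mem_union, or_imp, forall_and]
  split_ifs <;> simp_all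

theorem D0_star (A : Finset (Fin N)) : star (D0 A) = D0 A := by
  rw [D0, star_eq_conjTranspose, diagonal_conjTranspose]
  congr 1
  funext z
  simp only [i0, Pi.star_apply]
  split_ifs <;> simp

theorem D0_empty : D0 (∅ : Finset (Fin N)) = 1 := by
  have : i0 (∅ : Finset (Fin N)) = fun _ => 1 := by
    funext z
    simp [i0, wt]
  rw [D0, this, diagonal_one]

theorem Dge_big (A : Finset (Fin N)) {k : ℕ} (hk : N < k) : Dge A k = 0 := by
  rw [Dge, ← diagonal_zero]
  congr 1
  funext z
  rw [if_neg]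
  have := wt_le A z
  omega

/-- projector on the zero state of one qubit -/
def p0 : Q1 := diagonal (fun b => if b = false then 1 else 0)

/-- projector on the one state of one qubit -/
def p1 : Q1 := diagonal (fun b => if b = true then 1 else 0)

theorem D0_eq_tens (A : Finset (Fin N)) : D0 A = tens (fun i => if i ∈ A then p0 else 1) := by
  have h : (fun i : Fin N => if i ∈ A then p0 else (1 : Q1)) =
      fun i => diagonal (fun b => if i ∈ A then (if b = false then 1 else 0) else 1) := by
    funext i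
    split_ifs <;> simp [p0]
  rw [h, tens_diagonal, D0]
  congr 1
  funext z
  rw [prod_ite_mem, univ_inter, i0]
  split_ifs with h1
  · rw [wt_eq_zero] at h1
    exact (prod_eq_one fun i hi => if_pos (h1 i hi)).symm
  · rw [wt_eq_zero] at h1
    push Not at h1
    obtain ⟨i, hi, h2⟩ := h1
    exact (prod_eq_zero hi (if_neg h2)).symm

theorem mon_eq_tens (T : Finset (Fin N)) :
    diagonal (mon T) = tens (fun i => if i ∈ T then p1 else 1) := by
  have h : (fun i : Fin N => if i ∈ T then p1 else (1 : Q1)) =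
      fun i => diagonal (fun b => if i ∈ T then (if b = true then 1 else 0) else 1) := by
    funext i
    split_ifs <;> simp [p1]
  rw [h, tens_diagonal]
  congr 1
  funext z
  rw [prod_ite_mem, univ_inter, mon]
  split_ifs with h1
  · exact (prod_eq_one fun i hi => if_pos (h1 i hi)).symm
  · push Not at h1
    obtain ⟨i, hi, h2⟩ := h1
    exact (prod_eq_zero hi (if_neg h2)).symm

/-- product contractions acting only on `S` -/
def Loc (S : Finset (Fin N)) (M : Op N) : Prop :=
  ‖M‖ ≤ 1 ∧ ∃ X : Fin N → Q1, M = tens X ∧ ∀ i, i ∉ S → X i = 1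

theorem Loc.mul {S S' : Finset (Fin N)} {M M' : Op N} (h : Loc S M) (h' : Loc S' M') :
    Loc (S ∪ S') (M * M') := by
  obtain ⟨h1, X, rfl, hX⟩ := h
  obtain ⟨h2, Y, rfl, hY⟩ := h'
  refine ⟨(norm_mul_le _ _).trans (mul_le_one₀ h1 (norm_nonneg _) h2), _, tens_mul X Y, ?_⟩
  intro i hi
  rw [mem_union, not_or] at hi
  simp [hX i hi.1, hY i hi.2]

theorem Loc.mono {S S' : Finset (Fin N)} {M : Op N} (h : Loc S M) (hS : S ⊆ S') : Loc S' M := by
  obtain ⟨h1, X, rfl, hX⟩ := h
  exact ⟨h1, X, rfl, fun i hi => hX i (fun h => hi (hS h))⟩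

theorem Loc.mul' {S : Finset (Fin N)} {M M' : Op N} (h : Loc S M) (h' : Loc S M') :
    Loc S (M * M') := by
  simpa using h.mul h'

theorem loc_one (S : Finset (Fin N)) : Loc S (1 : Op N) :=
  ⟨norm_one.le, fun _ => 1, tens_one.symm, fun _ _ => rfl⟩

theorem loc_D0 (A : Finset (Fin N)) : Loc A (D0 A) :=
  ⟨norm_D0_le A, _, D0_eq_tens A, fun _ hi => if_neg hi⟩

theorem loc_mon (T : Finset (Fin N)) : Loc T (diagonal (mon T)) := by
  refine ⟨?_, _, mon_eq_tens T, fun _ hi => if_neg hi⟩
  apply norm_diagonal_le _ zero_le_one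
  intro z
  unfold mon
  split_ifs <;> simp

theorem Loc.conj {S : Finset (Fin N)} {M : Op N} (h : Loc S M) {u : Fin N → Q1}
    (hu : ∀ i, u i ∈ unitary Q1) : Loc S (star (tens u) * M * tens u) := by
  obtain ⟨h1, X, rfl, hX⟩ := h
  have hU := tens_unitary hu
  refine ⟨?_, fun i => star (u i) * X i * u i, by rw [tens_star, tens_mul, tens_mul], ?_⟩
  · rw [CStarRing.norm_mul_mem_unitary _ hU,
      CStarRing.norm_mem_unitary_mul _ (Unitary.star_mem hU)]
    exact h1
  · intro i hi
    simp only [hX i hi, mul_one]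
    exact (Unitary.mem_iff.1 (hu i)).1

theorem Loc.comm_D0 {S g : Finset (Fin N)} {M : Op N} (h : Loc S M) (hd : Disjoint g S) :
    D0 g * M = M * D0 g := by
  obtain ⟨-, X, rfl, hX⟩ := h
  rw [D0_eq_tens]
  apply tens_comm
  intro i
  by_cases hi : i ∈ g
  · exact Or.inr (hX i (disjoint_left.1 hd hi))
  · exact Or.inl (if_neg hi)

theorem Loc.vanish {S A : Finset (Fin N)} {M : Op N} (h : Loc S M) {k : ℕ} (hk : S.card < k) :
    Dge A k * M * D0 A = 0 := by
  obtain ⟨-, X, rfl, hX⟩ := h
  ext z w
  rw [Dge, D0, mul_diagonal, diagonal_mul, i0]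
  simp only [Matrix.zero_apply]
  split_ifs with h1 h2 h2
  · have : ∃ i, i ∉ S ∧ z i ≠ w i := by
      by_contra hh
      push Not at hh
      have : wt A z ≤ S.card := by
        apply card_le_card
        intro i hi
        rw [mem_filter] at hi
        by_contra hS
        have h3 := wt_eq_zero.1 h2 i hi.1
        rw [← hh i hS, hi.2] at h3
        exact absurd h3 (by simp)
      omega
    obtain ⟨i, hi, hne⟩ := this
    rw [tens_apply, prod_eq_zero (mem_univ i) (by rw [hX i hi, Matrix.one_apply_ne hne])]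
    simp
  all_goals simp

end Vale.Agent.P368
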